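import Vale.Agent.P216RD.GM
import Vale.Agent.P216D.ModRG
import Vale.Agent.P216K.Defs
import Vale.Agent.P216ST.Stmt

/-! # The interface of the global frame model on a closed manifold -/

open scoped Manifold ContDiff Topology
open Set

noncomputable section

namespace Vale.Agent.P216RD

open P216R P216D P216K P216ST

variable {M : Type} [TopologicalSpace M] [ChartedSpace E3 M]

/-- orthonormal frames over space-time -/
structure FP (g : ℝ → Ten E3 M) (I : Set ℝ) (U : Set M) where
  /-- time -/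
  t : ℝ
  /-- point -/
  x : M
  /-- vectors -/
  e : Fin 3 → E3
  ht : t ∈ I
  hx : x ∈ U
  on : ON (g t x) e

/-- the components of the derivatives of the curvature operator in a frame -/
def mm (g : Ten E3 M) (x : M) (e : Fin 3 → E3) (k : ℕ) (w : Fin k → Fin 3) (c d : Fin 3) : ℝ :=
  Rm g k x fun s => e (Loc.ix k w ![c + 1, c + 2, d + 2, d + 1] s)

/-- a global frame model with its dictionary -/
structure Mod (g : ℝ → Ten E3 M) (I : Set ℝ) (U : Set M) where
  /-- the ring -/
  A : Type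
  [cr : CommRing A]
  [al : Algebra ℝ A]
  /-- the calculus -/
  c : Fl A
  /-- points, time, maximum principle -/
  G : GM c (FP g I U) I
  tm : ∀ p, G.ev p G.t = p.t
  K : ∀ p a b, HasDerivWithinAt (fun s => g s p.x (p.e a) (p.e b)) (-2 * G.ev p (c.K a b)) I p.t
  sc : ∀ u, SmF E3 u I U → ∃ f : A, c.Inv f ∧ ∀ p, G.ev p f = u p.t p.x ∧
    HasDerivWithinAt (fun s => u s p.x) (G.ev p (c.Dt f)) I p.t ∧
    (∀ a, G.ev p (c.D a f) = df (u p.t) p.x (p.e a)) ∧
    ∀ a b, G.ev p (c.D a (c.D b f)) = hess (g p.t) (u p.t) p.x (p.e a) (p.e b)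
  rm : ∀ p k (w : Fin k → Fin 3) a b,
    G.ev p (c.Dw (List.ofFn w) (c.M a b)) = mm (g p.t) p.x p.e k w a b
  ric : ∀ p a b, G.ev p (c.Ric a b) = Ric (g p.t) p.x (p.e a) (p.e b)
  S : ∀ p, 2 * G.ev p c.S = Sc (g p.t) p.x

attribute [instance] Mod.cr Mod.al

/-- global frame models exist -/
def MODEL : Prop :=
  ∀ (M : Type) [TopologicalSpace M] [ChartedSpace E3 M] [IsManifold 𝓘(ℝ, E3) ∞ M]
    (g : ℝ → Ten E3 M) (I : Set ℝ) (U : Set M), Fam g I U → Iv I → IsCompact U → Hs U →
    Nonempty (Mod g I U)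

end Vale.Agent.P216RD
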