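import Vale.Agent.P216RD.Sta
import Mathlib.Analysis.SpecialFunctions.Log.Deriv

/-! # The potential along the flow -/

open Set
open scoped ContDiff

namespace Vale.Agent.P216RD

open P216D P216D.Fr P216D.Fl P216MP

variable {A : Type*} [CommRing A] [Algebra ℝ A] {c : RF A} {P : Type} {I : Set ℝ} {s : A}

lemma rf_s (h : Spl c.toFr s) : c.H s = -2 - 2 * s ^ 3 * c.ip c.S c.S := by
  have h1 : ∀ X : Derivation ℝ A A, X s = -s ^ 2 * X c.S := fun X => by
    linear_combination s * h.der X - X s * h.inv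
  rw [c.H_chain (x := c.S) (y := s) (y1 := -s ^ 2) (y2 := 2 * s ^ 3) (h1 _) (fun a => h1 _)
    fun a => by simp only [der_nf, h1]; ring, rf_S h]
  linear_combination -2 * (c.S * s + 1) * h.inv

lemma GM.s_eq (G : GM c.toFl P I) (h : Spl c.toFr s) (p : P) : G.ev p c.S * G.ev p s = 1 := by
  rw [← map_mul, h.inv, map_one]

/-- bounds for the curvature of an ancient solution with bounded curvature ratio -/
theorem GM.curv (G : GM c.toFl P I) (h : Spl c.toFr s) (hI : ∀ r ∈ I, r ≤ 0 ∧ Icc r 0 ⊆ I)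
    {C : ℝ} (hC : 0 < C) (h0 : ∀ p, 0 < G.ev p c.S)
    (h1 : ∀ p q, G.tm p = G.tm q → G.ev p c.S ≤ C * G.ev q c.S) {o : P} (ho : G.tm o = 0) (q : P) :
    G.ev q c.S ≤ C * G.ev o c.S ∧
      1 / (3 * C) ≤ G.ev q c.S * ((3 * G.ev o c.S)⁻¹ - G.tm q) := by
  have hq : G.tm q ≤ 0 ∧ Icc (G.tm q) 0 ⊆ I := hI _ (G.mem q)
  have ho' : G.tm o ∈ Icc (G.tm q) 0 := by rw [ho]; exact ⟨hq.1, le_rfl⟩
  constructor
  · have := G.sub (B := -(G.ev q c.S / C)) (-c.S) hq.2 (fun p hp => by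
      rw [map_neg, neg_le_neg_iff, div_le_iff₀' hC]; exact h1 q p hp.symm)
      (fun p _ => by
        rw [H_neg, rf_S h]
        simp only [map_neg, map_mul, map_pow, map_ofNat]
        nlinarith [sq_nonneg (G.ev p c.S)]) o ho'
    rwa [map_neg, neg_le_neg_iff, div_le_iff₀' hC] at this
  · have e : ∀ p, G.ev p s = (G.ev p c.S)⁻¹ := fun p => eq_inv_of_mul_eq_one_right (G.s_eq h p)
    have := G.lin (B := -((G.ev q c.S)⁻¹ / C)) (k := 2) (k' := 3) (-s) hq.2 (by norm_num)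
      (fun p hp => by
        rw [map_neg, neg_le_neg_iff, e, div_eq_mul_inv, ← mul_inv]
        exact inv_anti₀ (h0 p) (mul_comm C _ ▸ h1 p q hp))
      (fun p _ a1 => by
        have a2 : ∀ a, G.ev p (c.D a c.S) = 0 := fun a => by
          have a3 := congrArg (G.ev p) (h.der (c.D a))
          have a4 := a1 a
          rw [map_neg, map_neg, neg_eq_zero] at a4
          rw [map_mul, map_mul, a4, mul_zero, map_neg, e] at a3
          exact (mul_eq_zero.1 a3.symm).resolve_left (neg_ne_zero.2 (inv_pos.2 (h0 p)).ne')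
        rw [H_neg, rf_s h]
        simp [ip, a2, map_ofNat]) o ho'
    rw [map_neg, e, ho] at this
    have a1 := h0 q
    have a2 := h0 o
    have a3 : (G.ev q c.S)⁻¹ / C ≤ 3 * ((3 * G.ev o c.S)⁻¹ - G.tm q) := by
      rw [mul_inv, mul_sub, ← mul_assoc, mul_inv_cancel₀ three_ne_zero, one_mul]; linarith
    calc _ = G.ev q c.S * ((G.ev q c.S)⁻¹ / C) / 3 := by field_simp
      _ ≤ G.ev q c.S * (3 * ((3 * G.ev o c.S)⁻¹ - G.tm q)) / 3 := by gcongr
      _ = _ := by ring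

lemma Spl.vst {c : Fr A} {s f : A} (h : Spl c s) (hf : c.Inv f) : c.Vst (range (tl c s f)) 6 := by
  rintro _ ⟨p, rfl⟩ d
  rw [h.V_tl hf]
  exact ((Gb.sum3 fun e => (Gb.mem (mem_range_self _)).eps d p.1 e).add
    (Gb.sum3 fun e => (Gb.mem (mem_range_self _)).eps d p.2 e)).mono (by norm_num)

/-- the soliton identity up to errors -/
lemma Spl.sol {c : Fr A} {s f τ w L : A} (h : Spl c s) (hf : c.Inv f) (t : Tg c f)
    (hτ : ∀ a, c.D a τ = 0) (hw : w = c.Lap f - 2 * τ * c.S + 1)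
    (hL : ∀ a, c.D a L = s * c.D a c.S) (a b : Fin 3) :
    2 * τ * (c.D a (c.D b L) + c.S * gN c s a b) - gN c s a b =
      s * (∑ k, c.D a (c.D k (tl c s f (k, b))) - c.D a (c.D b w)) -
      s * c.D a L * (∑ k, c.D k (tl c s f (k, b)) - c.D b w) - tl c s f (a, b) - w * gN c s a b := by
  have h1 := h.div_tl t hf b
  have h2 := congrArg (c.D a) h1
  have h3 : c.D a s = -s ^ 2 * c.D a c.S := by
    linear_combination s * h.der (c.D a) - c.D a s * h.inv
  rw [map_sum] at h2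
  rw [h1, h2, hw]
  simp only [der_nf, hτ, hL, h3, tl]
  linear_combination (2 * s * c.D a c.S * c.D b f - 2 * c.D a (c.D b f)) * h.inv

/-- the constant in the final estimate -/
def cF (K : ℝ) : ℝ := 3 * (1 + cN 9 6 K) ^ 3 + 3 * (1 + cN 1 0 K) ^ 3

theorem flow {T τ₀ B ε K K₂ κ b δ : ℝ} (G : GM c.toFl P (Icc (-T) 0)) (hT : 1 ≤ T)
    (h : Spl c.toFr s) {f L : A} (hf : c.Inv f) (e : c.H f = 0)
    (hL : ∀ a, c.D a L = s * c.D a c.S) (hK : 0 ≤ K) (hκ : 0 < κ) (hb : 0 < b) (hδ : 0 < δ)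
    (hB : 0 ≤ B) (hK₂ : 0 < K₂)
    (h0 : ∀ p, G.tm p = -T → (∀ a, ∑ k, G.ev p (c.M a k) * G.ev p (c.D k f) = 0) ∧
      G.ev p (c.Nf (tl c.toFr s f) 0) ≤ B ∧ |G.ev p (c.Lap f) - 2 * τ₀ * G.ev p c.S + 1| ≤ ε)
    (h1 : ∀ p, G.tm p ∈ Icc (-1) 0 → (∀ i ≤ 2, √(G.ev p (c.N i)) ≤ K) ∧
      ∀ w : List (Fin 3), w.length ≤ 2 → |G.ev p (c.Dw w (2 * c.S))| ≤ K)
    (h2 : ∀ p, G.ev p c.S ≤ K₂ ∧ κ ≤ G.ev p c.S * (b - G.tm p))
    (h3 : B * Real.exp (κ * (Real.log (b + 1) - Real.log (b + T))) ≤ δ)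
    (h4 : ε ^ 2 * Real.exp (5 * K₂ * T) ≤ δ) (p : P) (hp : G.tm p = 0) (i j : Fin 3) :
    |2 * (τ₀ - T) * G.ev p (c.D i (c.D j L) + c.S * gN c.toFr s i j) - G.ev p (gN c.toFr s i j)| ≤
      √(cF K * δ) * (4 * |G.ev p s| + 4 * (|G.ev p s| * |G.ev p (c.D i L)|) + 1 +
        |G.ev p (gN c.toFr s i j)|) := by
  have hI : ∀ r ≤ 0, Icc (-T) r ⊆ Icc (-T) 0 := fun r hr => Icc_subset_Icc_right hr
  have hJ : Icc (-1) (-1 + 1) ⊆ Icc (-T) 0 := Icc_subset_Icc (by linarith) (by norm_num)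
  have t : Tg c.toFr f := h.tg_of (G.zero _ (s := -T) (fun r hr => ⟨hr.1, hI r hr.2⟩)
    (rf_nr h hf e) fun p hp a => by
      simp only [nr, map_sum, map_mul, mul_assoc, ← Finset.mul_sum, (h0 p hp).1 a, mul_zero])
  obtain ⟨τ, hτ⟩ : ∃ τ, τ = algebraMap ℝ A (τ₀ - T) - G.t := ⟨_, rfl⟩
  have τ1 : ∀ a, c.D a τ = 0 := fun a => by rw [hτ, map_sub, der_alg, G.tD, sub_zero]
  have τ2 : c.Dt τ = -1 := by rw [hτ, map_sub, der_alg, G.tT, zero_sub]
  have τ3 : ∀ p, G.ev p τ = τ₀ - T - G.tm p := fun p => by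
    rw [hτ, map_sub, AlgHom.commutes]; rfl
  obtain ⟨w, hw⟩ : ∃ w, w = c.Lap f - 2 * τ * c.S + 1 := ⟨_, rfl⟩
  have w1 : c.H w = 2 * c.S * w := by
    rw [hw, H_add, H_sub, rf_lap h hf t e, mul_assoc 2 τ,
      H_const_mul c.toFl (fun _ => der_ofNat _ 2) (der_ofNat _ 2), c.H_time_mul τ1, rf_S h, τ2,
      ← map_one (algebraMap ℝ A), H_alg, map_one]
    ring
  have w2 : c.Inv w := hw ▸ (hf.lap.sub (((inv_ofNat 2).mul fun a => by
    rw [hτ, map_sub, der_alg, G.tV, sub_zero]).mul inv_S)).add inv_one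
  have m1 : ∀ q, G.tm q ∈ Icc (-1) (-1 + 1) → G.ev q (c.Nf (tl c.toFr s f) 0) ≤ δ := fun q hq => by
    have a0 : ∀ r ≤ 0, 0 < b - r := fun r hr => by linarith
    have a1 := G.wt (B := Real.exp (-(κ * Real.log (b + T))) * B)
      (fun r => Real.exp (-(κ * Real.log (b - r))))
      (fun r hr => (contDiffAt_const.mul ((contDiffAt_const.sub contDiffAt_id).log
        (a0 r hr.2).ne')).neg.exp) (c.Nf (tl c.toFr s f) 0) subset_rfl
      (fun p hp => by
        rw [sub_neg_eq_add]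
        exact mul_le_mul_of_nonneg_left (h0 p hp).2.1 (Real.exp_pos _).le)
      (fun p hp a2 => ?_) q (G.mem q)
    · rw [Real.exp_neg (κ * Real.log (b - _)), inv_mul_le_iff₀ (Real.exp_pos _), ← mul_assoc,
        ← Real.exp_add, mul_comm] at a1
      refine a1.trans (le_trans (mul_le_mul_of_nonneg_left (Real.exp_le_exp.2 ?_) hB) h3)
      have := Real.log_le_log (a0 (G.tm q) (G.mem q).2)
        (show b - G.tm q ≤ b + 1 by linarith [hq.1])
      nlinarith
    · have a3 := Real.exp_pos (-(κ * Real.log (b - G.tm p)))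
      have a4 : 0 < G.ev p (c.Nf (tl c.toFr s f) 0) :=
        pos_of_mul_pos_right (lt_of_le_of_lt (by positivity) a2) a3.le
      have a5 := a0 _ hp.2
      have a6 : HasDerivAt (fun r => Real.exp (-(κ * Real.log (b - r))))
          (Real.exp (-(κ * Real.log (b - G.tm p))) * -(κ * (-1 / (b - G.tm p)))) (G.tm p) :=
        ((((hasDerivAt_id _).const_sub b).log a5.ne').const_mul κ).neg.exp
      have a7 : c.H (c.Nf (tl c.toFr s f) 0) =
          -(4 * c.S * c.Nf (tl c.toFr s f) 0) - 2 * c.Nf (tl c.toFr s f) 1 := by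
        rw [H_Nf0, Nf0, Finset.mul_sum, Finset.mul_sum, ← Finset.sum_neg_distrib]
        exact congrArg (· - _) (Finset.sum_congr rfl fun i _ => by rw [rf_tl h hf t e]; ring)
      have a8 : κ / (b - G.tm p) ≤ G.ev p c.S := (div_le_iff₀ a5).2 (h2 p).2
      have a9 : 0 < κ / (b - G.tm p) := div_pos hκ a5
      rw [a6.deriv, a7, show -(κ * (-1 / (b - G.tm p))) = κ / (b - G.tm p) by ring]
      simp only [map_sub, map_neg, map_mul, map_ofNat]
      nlinarith [mul_nonneg a3.le (c.ev_Nf_nonneg (G.ev p) (tl c.toFr s f) 1),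
        mul_le_mul_of_nonneg_left a8 (mul_pos a3 a4).le, mul_pos (mul_pos a3 a4) a9]
  have m2 : ∀ q, G.tm q ∈ Icc (-1) (-1 + 1) → G.ev q (c.Nf (fun _ : Unit => w) 0) ≤ δ :=
    fun q _ => by
      refine (G.exp (B := ε ^ 2) (k := 4 * K₂) (k' := 5 * K₂) _ subset_rfl (sq_nonneg _)
        (by linarith) (fun p hp => ?_) (fun p _ a1 => ?_) q (G.mem q)).trans (le_trans ?_ h4)
      · have := (h0 p hp).2.2
        simp only [Nf0, Finset.univ_unique, Finset.sum_singleton, map_pow, hw, map_add, map_sub,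
          map_mul, map_ofNat, map_one, τ3, hp, sub_neg_eq_add, sub_add_cancel]
        exact sq_le_sq' (abs_le.1 this).1 (abs_le.1 this).2
      · have := c.ev_Nf_nonneg (G.ev p) (fun _ : Unit => w) 1
        rw [H_Nf0]
        simp only [Nf0, w1, Finset.univ_unique, Finset.sum_singleton, map_pow, map_sub,
          map_mul, map_ofNat]
        nlinarith [mul_le_mul_of_nonneg_right (h2 p).1 (sq_nonneg (G.ev p w))]
      · refine mul_le_mul_of_nonneg_left (Real.exp_le_exp.2 ?_) (sq_nonneg _)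
        nlinarith [(G.mem q).2, show G.ev q G.t = G.tm q from rfl]
  have h1' : ∀ p, G.tm p ∈ Icc (-1) (-1 + 1) → _ := fun p hp => h1 p (by simpa using hp)
  have n1 := fun k hk => G.bern (tl c.toFr s f) hJ (by norm_num) hK hδ (h.vst hf) (rf_tl h hf t e)
    (fun p hp => (h1' p hp).1) (fun p hp w hw => by
      rw [Dw_neg, map_neg, abs_neg]; exact (h1' p hp).2 w hw) m1 p (by simpa using hp) (k := k) hk
  have n2 := fun k hk => G.bern (fun _ : Unit => w) hJ le_rfl hK hδ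
    (by rw [range_const]; exact c.vst_inv w2) (fun _ => w1) (fun p hp => (h1' p hp).1)
    (fun p hp => (h1' p hp).2) m2 p (by simpa using hp) (k := k) hk
  have c1 : 0 ≤ cN 9 6 K := by
    have := cE_nonneg (v := 6) (by norm_num) 1
    have := cE_nonneg (v := 6) (by norm_num) 2
    rw [cN]; positivity
  have c2 : 0 ≤ cN 1 0 K := by
    have := cE_nonneg (v := 0) le_rfl 1
    have := cE_nonneg (v := 0) le_rfl 2
    rw [cN]; positivity
  have d1 : ∀ u : List (Fin 3), u.length ≤ 2 → ∀ i, |G.ev p (c.Dw u (tl c.toFr s f i))| ≤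
      √(cF K * δ) := fun u hu i => (c.ev_Dw_le _ _ rfl i).trans (Real.sqrt_le_sqrt ((n1 _ hu).trans
    (mul_le_mul_of_nonneg_right (le_add_of_nonneg_right (by positivity)) hδ.le)))
  have d2 : ∀ u : List (Fin 3), u.length ≤ 2 → |G.ev p (c.Dw u w)| ≤ √(cF K * δ) := fun u hu =>
    (c.ev_Dw_le _ (fun _ : Unit => w) rfl ()).trans (Real.sqrt_le_sqrt ((n2 _ hu).trans
      (mul_le_mul_of_nonneg_right (le_add_of_nonneg_left (by positivity)) hδ.le)))
  have e1 := congrArg (G.ev p) (h.sol hf t τ1 hw hL i j)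
  rw [map_sub, map_mul, map_mul, τ3, hp, sub_zero, map_ofNat] at e1
  rw [e1]
  obtain ⟨η, hη⟩ : ∃ η, η = √(cF K * δ) := ⟨_, rfl⟩
  rw [← hη] at d1 d2 ⊢
  have f1 : |G.ev p (∑ k, c.D i (c.D k (tl c.toFr s f (k, j))) - c.D i (c.D j w))| ≤ 4 * η := by
    have a := fun k => abs_le.1 (d1 [i, k] le_rfl (k, j))
    have b := abs_le.1 (d2 [i, j] le_rfl)
    simp only [Dw_cons, Dw_nil, Fin.sum_univ_three, map_sub, map_add, abs_le] at a b ⊢
    constructor <;> linarith [a 0, a 1, a 2]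
  have f2 : |G.ev p (∑ k, c.D k (tl c.toFr s f (k, j)) - c.D j w)| ≤ 4 * η := by
    have a := fun k => abs_le.1 (d1 [k] one_le_two (k, j))
    have b := abs_le.1 (d2 [j] one_le_two)
    simp only [Dw_cons, Dw_nil, Fin.sum_univ_three, map_sub, map_add, abs_le] at a b ⊢
    constructor <;> linarith [a 0, a 1, a 2]
  have f3 : |G.ev p (tl c.toFr s f (i, j))| ≤ η := d1 [] zero_le_two (i, j)
  have f4 : |G.ev p w| ≤ η := d2 [] zero_le_two
  rw [map_sub, map_sub, map_sub, map_mul, map_mul, map_mul, map_mul]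
  refine (abs_sub _ _).trans (le_trans (add_le_add ((abs_sub _ _).trans (add_le_add
    (abs_sub _ _) f3)) le_rfl) ?_)
  simp only [abs_mul]
  nlinarith [mul_le_mul_of_nonneg_left f1 (abs_nonneg (G.ev p s)),
    mul_le_mul_of_nonneg_left f2 (mul_nonneg (abs_nonneg (G.ev p s))
      (abs_nonneg (G.ev p (c.D i L)))),
    mul_le_mul_of_nonneg_right f4 (abs_nonneg (G.ev p (gN c.toFr s i j)))]

end Vale.Agent.P216RD
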