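import Vale.Agent.P216D.Shi
import Mathlib.Analysis.Calculus.ContDiff.Basic
import Mathlib.Analysis.SpecialFunctions.ExpDeriv
import Mathlib.Tactic.IntervalCases

/-! # Global models of the frame calculus on closed manifolds: maximum principles -/

open Set
open scoped ContDiff

namespace Vale.Agent.P216RD

open P216D P216D.Fr P216D.Fl

variable {A : Type*} [CommRing A] [Algebra ℝ A]

/-- a global model: points, time, chain rule, maximum principle -/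
structure GM (c : Fl A) (P : Type) (I : Set ℝ) where
  /-- evaluation at a frame -/
  ev : P → A →ₐ[ℝ] ℝ
  /-- the time -/
  t : A
  mem : ∀ p, ev p t ∈ I
  ext : ∀ x, (∀ p, ev p x = 0) → x = 0
  tD : ∀ a, c.D a t = 0
  tV : ∀ a, c.V a t = 0
  tT : c.Dt t = 1
  comp : ∀ (h : ℝ → ℝ) (x : A), (∀ p, ContDiffAt ℝ ∞ h (ev p x)) → ∃ y : A, ∀ p,
    ev p y = h (ev p x) ∧ (∀ a, ev p (c.D a y) = deriv h (ev p x) * ev p (c.D a x)) ∧
    (∀ a, ev p (c.V a y) = deriv h (ev p x) * ev p (c.V a x)) ∧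
    ev p (c.Dt y) = deriv h (ev p x) * ev p (c.Dt x)
  mp : ∀ (x : A) (s r : ℝ) (q : P), Icc s r ⊆ I → ev q t ∈ Icc s r → ∃ p, ev p t ∈ Icc s r ∧
    (∀ q, ev q t ∈ Icc s r → ev q x ≤ ev p x) ∧ (∀ a, ev p (c.D a x) = 0) ∧
    (s < ev p t → 0 ≤ ev p (c.H x))

namespace GM

variable {c : Fl A} {P : Type} {I : Set ℝ} (G : GM c P I) {s r B : ℝ}

/-- the time of a point -/
def tm (p : P) : ℝ := G.ev p G.t

lemma eq {x y : A} (h : ∀ p, G.ev p x = G.ev p y) : x = y :=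
  sub_eq_zero.1 (G.ext _ fun p => by rw [map_sub, h, sub_self])

lemma Ht : c.H G.t = 1 := by rw [H, G.tT, c.Lap_const G.tD, sub_zero]

lemma bdd (x : A) (hI : Icc s r ⊆ I) : ∃ K, 0 < K ∧ ∀ q, G.tm q ∈ Icc s r → G.ev q x ≤ K := by
  by_cases h : ∃ q, G.tm q ∈ Icc s r
  · obtain ⟨q, hq⟩ := h
    obtain ⟨p, -, h1, -⟩ := G.mp x s r q hI hq
    exact ⟨max 1 (G.ev p x), by positivity, fun q hq => (h1 q hq).trans (le_max_right _ _)⟩
  · exact ⟨1, one_pos, fun q hq => (h ⟨q, hq⟩).elim⟩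

theorem le (x : A) (hI : Icc s r ⊆ I) (h0 : ∀ p, G.tm p = s → G.ev p x ≤ B)
    (h : ∀ p, G.tm p ∈ Ioc s r → B < G.ev p x → (∀ a, G.ev p (c.D a x) = 0) →
      G.ev p (c.H x) < 0) (q : P) (hq : G.tm q ∈ Icc s r) : G.ev q x ≤ B := by
  obtain ⟨p, h1, h2, h3, h4⟩ := G.mp x s r q hI hq
  refine (h2 q hq).trans (not_lt.1 fun h5 => ?_)
  rcases h1.1.eq_or_lt with e | e
  · exact absurd (h0 p e.symm) (not_le.2 h5)
  · exact absurd (h4 e) (not_le.2 (h p ⟨e, h1.2⟩ h5 h3))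

lemma time (θ : ℝ → ℝ) (hθ : ∀ r ∈ I, ContDiffAt ℝ ∞ θ r) : ∃ y : A, (∀ a, c.D a y = 0) ∧
    (∀ a, c.V a y = 0) ∧ ∀ p, G.ev p y = θ (G.tm p) ∧ G.ev p (c.Dt y) = deriv θ (G.tm p) := by
  obtain ⟨y, hy⟩ := G.comp θ G.t fun p => hθ _ (G.mem p)
  exact ⟨y, fun a => G.ext _ fun p => by rw [(hy p).2.1, G.tD, map_zero, mul_zero],
    fun a => G.ext _ fun p => by rw [(hy p).2.2.1, G.tV, map_zero, mul_zero],
    fun p => ⟨(hy p).1, by rw [(hy p).2.2.2, G.tT, map_one, mul_one]; rfl⟩⟩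

theorem wt (θ : ℝ → ℝ) (hθ : ∀ r ∈ I, ContDiffAt ℝ ∞ θ r) (x : A) (hI : Icc s r ⊆ I)
    (h0 : ∀ p, G.tm p = s → θ s * G.ev p x ≤ B)
    (h : ∀ p, G.tm p ∈ Ioc s r → B < θ (G.tm p) * G.ev p x →
      θ (G.tm p) * G.ev p (c.H x) + G.ev p x * deriv θ (G.tm p) < 0)
    (q : P) (hq : G.tm q ∈ Icc s r) : θ (G.tm q) * G.ev q x ≤ B := by
  obtain ⟨y, h1, -, h2⟩ := G.time θ hθ
  have e : ∀ p, G.ev p (y * x) = θ (G.tm p) * G.ev p x := fun p => by rw [map_mul, (h2 p).1]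
  rw [← e]
  refine G.le _ hI (fun p hp => by rw [e, hp]; exact h0 p hp) (fun p hp h3 _ => ?_) q hq
  rw [c.H_time_mul h1, map_add, map_mul, map_mul, (h2 p).1, (h2 p).2]
  exact h p hp (e p ▸ h3)

/-- exponential growth or decay -/
theorem exp {k k' : ℝ} (x : A) (hI : Icc s r ⊆ I) (hB : 0 ≤ B) (hk : k < k')
    (h0 : ∀ p, G.tm p = s → G.ev p x ≤ B)
    (h : ∀ p, G.tm p ∈ Ioc s r → 0 < G.ev p x → G.ev p (c.H x) ≤ k * G.ev p x)
    (q : P) (hq : G.tm q ∈ Icc s r) : G.ev q x ≤ B * Real.exp (k' * (G.tm q - s)) := by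
  have h1 := G.wt (B := B) (fun u => Real.exp (-(k' * (u - s)))) (fun _ _ => by fun_prop) x hI
    (fun p hp => by simpa using h0 p hp) (fun p hp h2 => ?_) q hq
  · rwa [Real.exp_neg, inv_mul_le_iff₀ (Real.exp_pos _), mul_comm] at h1
  · have h3 := Real.exp_pos (-(k' * (G.tm p - s)))
    have h4 : 0 < G.ev p x := pos_of_mul_pos_right (hB.trans_lt h2) h3.le
    have h5 : HasDerivAt (fun u => Real.exp (-(k' * (u - s))))
        (Real.exp (-(k' * (G.tm p - s))) * -(k' * 1)) (G.tm p) :=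
      (((hasDerivAt_id _).sub_const s).const_mul k').neg.exp
    rw [h5.deriv]
    nlinarith [h p hp h4, mul_pos h3 (mul_pos h4 (sub_pos.2 hk)),
      mul_le_mul_of_nonneg_left (h p hp h4) h3.le]

/-- linear growth -/
theorem lin {k k' : ℝ} (x : A) (hI : Icc s r ⊆ I) (hk : k < k')
    (h0 : ∀ p, G.tm p = s → G.ev p x ≤ B)
    (h : ∀ p, G.tm p ∈ Ioc s r → (∀ a, G.ev p (c.D a x) = 0) → G.ev p (c.H x) ≤ k)
    (q : P) (hq : G.tm q ∈ Icc s r) : G.ev q x ≤ B + k' * (G.tm q - s) := by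
  have e : ∀ p, G.ev p (x - k' • G.t) = G.ev p x - k' * G.tm p := fun p => by
    rw [map_sub, map_smul]; rfl
  have h1 := G.le (B := B - k' * s) (x - k' • G.t) hI (fun p hp => by rw [e, hp]; linarith [h0 p hp])
    (fun p hp _ h2 => ?_) q hq
  · rw [e] at h1; linarith
  · have h3 := h p hp fun a => by simpa [G.tD] using h2 a
    rw [H_sub, H_smul, G.Ht]
    simp only [map_sub, map_smul, map_one, smul_eq_mul, mul_one]
    linarith

/-- subsolutions of the heat equation -/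
theorem sub (x : A) (hI : Icc s r ⊆ I) (h0 : ∀ p, G.tm p = s → G.ev p x ≤ B)
    (h : ∀ p, G.tm p ∈ Ioc s r → G.ev p (c.H x) ≤ 0) (q : P) (hq : G.tm q ∈ Icc s r) :
    G.ev q x ≤ B := by
  refine le_of_forall_pos_le_add fun η hη => ?_
  have h1 : 0 < r - s + 1 := by linarith [hq.1, hq.2]
  refine (G.lin x hI (div_pos hη h1) h0 (fun p hp _ => h p hp) q hq).trans (add_le_add_right ?_ _)
  rw [div_mul_eq_mul_div, div_le_iff₀ h1]
  nlinarith [hq.2]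

lemma inv (x : A) (hx : ∀ p, G.ev p x ≠ 0) : ∃ y, x * y = 1 := by
  obtain ⟨y, hy⟩ := G.comp (fun u => u⁻¹) x fun p => contDiffAt_inv ℝ (hx p)
  exact ⟨y, G.eq fun p => by rw [map_mul, (hy p).1, map_one, mul_inv_cancel₀ (hx p)]⟩

end GM

/-- the constant of the Bernstein estimate -/
def cN (n : ℕ) (v K : ℝ) : ℝ := 18 * n * (cE v 1 + cE v 2 + 4) * K

lemma ev_H_Nf_mul {c : RF A} (ev : A →ₐ[ℝ] ℝ) {ι : Type} [Fintype ι] (x : ι → A) {v K : ℝ}
    (hv : 0 ≤ v) (hK : 0 ≤ K) (hx : c.Vst (range x) v) {σ : A} (hσ : ∀ i, c.H (x i) = σ * x i)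
    (h1 : ∀ i ≤ 2, √(ev (c.N i)) ≤ K)
    (h2 : ∀ w : List (Fin 3), w.length ≤ 2 → |ev (c.Dw w σ)| ≤ K) {k : ℕ} (hk : k ≤ 2) {b : ℝ}
    (hb : ∀ j ≤ k, ev (c.Nf x j) ≤ b) :
    ev (c.H (c.Nf x k)) ≤ -2 * ev (c.Nf x (k + 1)) + cN (Fintype.card ι) v K * b := by
  have b0 : 0 ≤ b := (c.ev_Nf_nonneg ev x 0).trans (hb 0 k.zero_le)
  have h3 : ∀ j ≤ k, √(ev (c.Nf x j)) ≤ √b := fun j hj => Real.sqrt_le_sqrt (hb j hj)
  have h4 := c.ev_H_Nf ev x hv hx (k := k) (r := K * √b) (s := 1 * 2 ^ k * (K * √b))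
    (fun i j hij => mul_le_mul (h1 i (by omega)) (h3 j (by omega)) (Real.sqrt_nonneg _) hK)
    fun w hw i => by
      rw [hσ, ← hw]
      refine (gb_Dw_St (G := {σ}) (G' := range x) (k := 0) (Gb.mem ⟨0, 0, rfl, σ, by
        rw [Wd_zero]; rfl, x i, by rw [Wd_zero]; exact ⟨i, rfl⟩, rfl⟩) w).ev ev (by positivity) ?_
      rintro _ ⟨i, j, hij, _, ⟨u, hu, _, rfl, rfl⟩, _, ⟨u', hu', _, ⟨q, rfl⟩, rfl⟩, rfl⟩
      rw [map_mul, abs_mul]
      exact mul_le_mul (h2 u (by omega)) ((c.ev_Dw_le ev x hu' q).trans (h3 j (by omega)))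
        (abs_nonneg _) hK
  have h5 : (3 : ℝ) ^ k * (cE v k + 2 ^ k) ≤ 9 * (cE v 1 + cE v 2 + 4) := by
    have a1 := cE_nonneg hv 1
    have a2 := cE_nonneg hv 2
    interval_cases k
    · simp only [cE.eq_1]; linarith
    · linarith
    · linarith
  have h6 : 2 * (Fintype.card ι : ℝ) * 3 ^ k * (cE v k * (K * √b) + 1 * 2 ^ k * (K * √b)) *
      √(ev (c.Nf x k)) ≤ cN (Fintype.card ι) v K * b := by
    have a1 := cE_nonneg hv k
    calc _ = 2 * (Fintype.card ι : ℝ) * (3 ^ k * (cE v k + 2 ^ k)) * K *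
          (√b * √(ev (c.Nf x k))) := by ring
      _ ≤ 2 * (Fintype.card ι : ℝ) * (9 * (cE v 1 + cE v 2 + 4)) * K * (√b * √b) := by
          have := h3 k le_rfl
          have a2 := cE_nonneg hv 1
          have a3 := cE_nonneg hv 2
          gcongr
      _ = _ := by rw [Real.mul_self_sqrt b0, cN]; ring
  linarith [(abs_le.1 h4).2]

/-- **Bernstein estimate** for a tensor that solves a linear heat equation. -/
theorem GM.bern {c : RF A} {P : Type} {I : Set ℝ} (G : GM c.toFl P I) {ι : Type} [Fintype ι]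
    (x : ι → A) {v K s δ : ℝ} (hI : Icc s (s + 1) ⊆ I) (hv : 0 ≤ v) (hK : 0 ≤ K) (hδ : 0 < δ)
    (hx : c.Vst (range x) v) {σ : A} (hσ : ∀ i, c.H (x i) = σ * x i)
    (h1 : ∀ p, G.tm p ∈ Icc s (s + 1) → ∀ i ≤ 2, √(G.ev p (c.N i)) ≤ K)
    (h2 : ∀ p, G.tm p ∈ Icc s (s + 1) → ∀ w : List (Fin 3), w.length ≤ 2 →
      |G.ev p (c.Dw w σ)| ≤ K)
    (h0 : ∀ p, G.tm p ∈ Icc s (s + 1) → G.ev p (c.Nf x 0) ≤ δ) (q : P) (hq : G.tm q = s + 1)
    {k : ℕ} (hk : k ≤ 2) : G.ev q (c.Nf x k) ≤ 3 * (1 + cN (Fintype.card ι) v K) ^ 3 * δ := by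
  obtain ⟨C, hC⟩ : ∃ C, C = cN (Fintype.card ι) v K := ⟨_, rfl⟩
  have C0 : 0 ≤ C := by
    have := cE_nonneg hv 1
    have := cE_nonneg hv 2
    rw [hC, cN]; positivity
  obtain ⟨u, hu⟩ : ∃ u, u = G.t - algebraMap ℝ A s := ⟨_, rfl⟩
  have u1 : ∀ a, c.D a u = 0 := fun a => by rw [hu, map_sub, G.tD, der_alg, sub_zero]
  have u2 : c.Dt u = 1 := by rw [hu, map_sub, G.tT, der_alg, sub_zero]
  have u3 : ∀ p, G.ev p u = G.tm p - s := fun p => by rw [hu, map_sub, AlgHom.commutes]; rfl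
  have e : ∀ p, G.ev p ((1 + C) ^ 2 • c.Nf x 0 + (1 + C) • (u * c.Nf x 1) + u * (u * c.Nf x 2)) =
      (1 + C) ^ 2 * G.ev p (c.Nf x 0) + (1 + C) * ((G.tm p - s) * G.ev p (c.Nf x 1)) +
        (G.tm p - s) * ((G.tm p - s) * G.ev p (c.Nf x 2)) := fun p => by
    simp only [map_add, map_smul, map_mul, u3, smul_eq_mul]
  have n := fun p j => c.ev_Nf_nonneg (G.ev p) x j
  have h3 := G.lin (B := (1 + C) ^ 2 * δ) (k := C * ((1 + C) ^ 2 + (1 + C) + 1) * δ)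
    (k' := (C * ((1 + C) ^ 2 + (1 + C) + 1) + 1) * δ)
    ((1 + C) ^ 2 • c.Nf x 0 + (1 + C) • (u * c.Nf x 1) + u * (u * c.Nf x 2)) hI (by linarith)
    (fun p hp => by
      rw [e, hp, sub_self, zero_mul, zero_mul, mul_zero, add_zero, add_zero]
      exact mul_le_mul_of_nonneg_left (h0 p (by rw [hp]; simp)) (sq_nonneg _))
    (fun p hp _ => ?_) q (by rw [hq]; simp)
  · rw [e, hq, add_sub_cancel_left] at h3
    rw [← hC]
    have a0 := n q 0
    have a1 := n q 1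
    have a2 := n q 2
    have a3 : (1 + C) ^ 2 * δ + (C * ((1 + C) ^ 2 + (1 + C) + 1) + 1) * δ * 1 ≤
        3 * (1 + C) ^ 3 * δ := by
      have : 0 ≤ δ * (1 + 4 * C + 5 * C ^ 2 + 2 * C ^ 3) := by positivity
      nlinarith
    have a4 := mul_nonneg C0 a0
    have a5 := mul_nonneg C0 a1
    have a6 := mul_nonneg C0 a4
    interval_cases k <;> nlinarith
  · have hp' : G.tm p ∈ Icc s (s + 1) := ⟨hp.1.le, hp.2⟩
    have a0 := h0 p hp'
    have b := fun k hk b hb => ev_H_Nf_mul (G.ev p) x hv hK hx hσ (h1 p hp') (h2 p hp') (k := k) hk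
      (b := b) hb
    have n0 := n p 0
    have n1 := n p 1
    have n2 := n p 2
    have n3 := n p 3
    have b0 := b 0 (by norm_num) δ fun j hj => by interval_cases j; exact a0
    have b1 := b 1 (by norm_num) (δ + G.ev p (c.Nf x 1)) fun j hj => by interval_cases j <;> linarith
    have b2 := b 2 le_rfl (δ + G.ev p (c.Nf x 1) + G.ev p (c.Nf x 2)) fun j hj => by
      interval_cases j <;> linarith
    rw [← hC] at b0 b1 b2
    obtain ⟨y, hy⟩ : ∃ y, y = G.tm p - s := ⟨_, rfl⟩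
    have y0 : 0 ≤ y := by linarith [hp.1]
    have y1 : y ≤ 1 := by linarith [hp.2]
    simp only [H_add, H_smul, c.H_time_mul u1, u2, map_add, map_smul, map_mul, u3, smul_eq_mul,
      mul_one, ← hy]
    have c0 := mul_le_mul_of_nonneg_left b0 (sq_nonneg (1 + C))
    have c1 := mul_le_mul_of_nonneg_left b1 (mul_nonneg (by linarith : 0 ≤ 1 + C) y0)
    have c2 := mul_le_mul_of_nonneg_left b2 (mul_nonneg y0 y0)
    have d1 : (1 + C) * y * (C * (δ + G.ev p (c.Nf x 1))) ≤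
        (1 + C) * 1 * (C * (δ + G.ev p (c.Nf x 1))) := by gcongr
    have d2 : y * y * (C * (δ + G.ev p (c.Nf x 1))) ≤ 1 * 1 * (C * (δ + G.ev p (c.Nf x 1))) := by
      gcongr
    have d3 : y * y * (C * G.ev p (c.Nf x 2)) ≤ 1 * y * (C * G.ev p (c.Nf x 2)) := by gcongr
    have d4 := mul_nonneg (mul_nonneg y0 y0) n3
    have d5 := mul_nonneg (mul_nonneg y0 C0) n2
    have d6 := mul_nonneg C0 n1
    have d7 := mul_nonneg C0 d6
    nlinarith

end Vale.Agent.P216RD
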