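import Vale.Agent.P216RD.Alg
import Vale.Agent.P216RD.GM

/-! # The static heat flow: an approximate potential with bounded traceless Hessian -/

open Set

namespace Vale.Agent.P216RD

open P216D P216D.Fr P216D.Fl P216MP

variable {A : Type*} [CommRing A] [Algebra ℝ A]

lemma H_Nf0 (c : Fl A) {ι : Type} [Fintype ι] (x : ι → A) :
    c.H (c.Nf x 0) = 2 * ∑ i, x i * c.H (x i) - 2 * c.Nf x 1 := by
  rw [c.H_Nf, Fintype.sum_prod_type]
  simp

lemma Nf0 (c : Fr A) {ι : Type} [Fintype ι] (x : ι → A) : c.Nf x 0 = ∑ i, x i ^ 2 := by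
  simp only [Nf, Qf_zero, sq]

lemma ev_hsq (c : Fr A) (ev : A →ₐ[ℝ] ℝ) (f : A) : 0 ≤ ev (c.hsq f) := by
  simp only [hsq, map_sum, map_pow]
  positivity

/-- a family of solutions of the heat equation that vanishes initially vanishes -/
lemma GM.zero {c : Fl A} {P : Type} {I : Set ℝ} (G : GM c P I) {ι : Type} [Fintype ι] (x : ι → A)
    {s : ℝ} (hI : ∀ r ∈ I, s ≤ r ∧ Icc s r ⊆ I) (h : ∀ i, c.H (x i) = 0)
    (h0 : ∀ p, G.tm p = s → ∀ i, G.ev p (x i) = 0) (i : ι) : x i = 0 := by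
  refine G.ext _ fun q => ?_
  have h1 := G.sub (B := 0) (c.Nf x 0) (hI _ (G.mem q)).2
    (fun p hp => by simp [Nf0, h0 p hp])
    (fun p _ => by
      simp only [H_Nf0, h, mul_zero, Finset.sum_const_zero, zero_sub, map_neg, map_mul, map_ofNat]
      linarith [c.ev_Nf_nonneg (G.ev p) x 1]) q ⟨(hI _ (G.mem q)).1, le_rfl⟩
  simp only [Nf0, map_sum, map_pow] at h1
  exact pow_eq_zero_iff two_ne_zero |>.1 (le_antisymm ((Finset.single_le_sum
    (f := fun i => G.ev q (x i) ^ 2) (fun _ _ => sq_nonneg _) (Finset.mem_univ i)).trans h1)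
    (sq_nonneg _))

lemma Spl.y_sq {c : Fr A} {s f : A} (h : Spl c s) (t : Tg c f) :
    ∑ p : Fin 3 × Fin 3, (c.D p.1 c.S * c.D p.2 f + c.D p.2 c.S * c.D p.1 f -
      c.ip c.S f * gN c s p.1 p.2) ^ 2 = 2 * c.ip c.S c.S * c.ip f f := by
  have h1 := h.gf t
  have h2 := h.gN_sq
  have h3 : ∀ a b, gN c s a b = gN c s b a := fun a b => by rw [gN, gN, c.Ric_symm]
  have h4 := h1 0
  have h5 := h1 1
  have h6 := h1 2
  simp only [ip, Fintype.sum_prod_type, Fin.sum_univ_three, h3 1 0, h3 2 0, h3 2 1] at *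
  linear_combination (c.D 0 c.S * c.D 0 f + c.D 1 c.S * c.D 1 f + c.D 2 c.S * c.D 2 f) ^ 2 * h2 -
    4 * (c.D 0 c.S * c.D 0 f + c.D 1 c.S * c.D 1 f + c.D 2 c.S * c.D 2 f) *
      (c.D 0 c.S * h4 + c.D 1 c.S * h5 + c.D 2 c.S * h6)

theorem static {c : Fl A} {P : Type} (G : GM c P (Ici 0)) (hK : ∀ a b, c.K a b = 0) {s F : A}
    (h : Spl c.toFr s) (hF : c.Inv F) (e : c.H F = -(2 * c.S))
    (h0 : ∀ p, G.tm p = 0 → ∀ a, G.ev p (c.D a F) = 0 ∧ ∀ b, G.ev p (c.D a (c.D b F)) = 0)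
    {ρ C : ℝ} (hρ : 0 < ρ) (hC : 1 ≤ C) (h1 : ∀ p, ρ ≤ G.ev p c.S)
    (h2 : ∀ p, G.ev p (c.ip c.S c.S) ≤ C * ρ ^ 3) (h3 : ∀ p, G.ev p (c.hsq c.S) ≤ C * ρ ^ 4) :
    Tg c.toFr F ∧ (∀ p, G.ev p (c.Nf (tl c.toFr s F) 0) ≤ 6 * C ^ 2 * ρ ^ 2) ∧
      (∀ p, 2 * ρ ≤ G.ev p (2 * c.S - c.Lap F)) ∧ ∀ η > 0, ∃ r, 0 ≤ r ∧ ∀ p, G.tm p = r →
        G.ev p (c.ip (2 * c.S - c.Lap F) (2 * c.S - c.Lap F)) ≤ η := by
  have hI : ∀ r, Icc 0 r ⊆ Ici (0 : ℝ) := fun _ => Icc_subset_Ici_self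
  have hq : ∀ q, G.tm q ∈ Icc 0 (G.tm q) := fun q => ⟨G.mem q, le_rfl⟩
  have tS := h.tg_S
  have L0 : ∀ p, G.tm p = 0 → G.ev p (c.Lap F) = 0 := fun p hp => by
    simp only [Lap, map_sum, (h0 p hp _).2, Finset.sum_const_zero]
  have t : Tg c.toFr F := h.tg_of (G.zero _ (s := 0) (fun r hr => ⟨hr, hI r⟩)
    (st_nr hK h hF fun a => by
      have := tS a
      simp only [e, der_nf, Fin.sum_univ_three] at *
      linear_combination -2 * this)
    fun p hp a => by simp [nr, (h0 p hp _).1])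
  have g1 : ∀ q, G.ev q (c.ip F F) ≤ 4 * C * ρ := fun q => by
    refine G.le _ (hI _) (fun p hp => ?_) (fun p _ a1 _ => ?_) q (hq q)
    · simp only [ip, map_sum, map_mul, (h0 p hp _).1, mul_zero, Finset.sum_const_zero]
      positivity
    · rw [st_H_ip hK hF, e, Spl.rip_eq t, ip_neg_right, ip_mul_right, c.ip_comm F 2,
        c.ip_const (x := 2) fun a => der_ofNat _ 2]
      simp only [map_sub, map_mul, map_add, map_neg, map_ofNat, map_zero]
      have a2 := c.ev_ip_sq_le (G.ev p) F c.S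
      have a3 := ev_hsq c.toFr (G.ev p) F
      have a4 : 0 < G.ev p (c.ip F F) := lt_of_le_of_lt (by positivity) a1
      have a5 : |2 * G.ev p (c.ip F c.S)| < ρ * G.ev p (c.ip F F) := by
        refine abs_lt_of_sq_lt_sq ?_ (by positivity)
        have a6 := mul_le_mul_of_nonneg_left (h2 p) a4.le
        have a7 := mul_lt_mul_of_pos_left a1 (mul_pos a4 (pow_pos hρ 2))
        nlinarith
      nlinarith [(abs_lt.1 a5).1, mul_le_mul_of_nonneg_right (h1 p) a4.le]
  have Hu : c.H (2 * c.S - c.Lap F) = 0 := by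
    rw [H_sub, st_H_Lap hK, e, H, Lap_neg, der_mul, st_S hK, der_ofNat]; ring
  have tu : Tg c.toFr (2 * c.S - c.Lap F) := fun a => by
    have a1 := tS a
    have a2 := h.tg_lap t hF a
    simp only [der_nf, Fin.sum_univ_three] at *
    linear_combination 2 * a1 - a2
  refine ⟨t, fun q => ?_, fun q => ?_, fun η hη => ?_⟩
  · refine G.le _ (hI _) (fun p hp => ?_) (fun p _ a1 _ => ?_) q (hq q)
    · simp only [Nf0, tl, map_sum, map_pow, map_sub, map_mul, (h0 p hp _).2, L0 p hp]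
      simp only [mul_zero, zero_mul, sub_zero, ne_eq, OfNat.ofNat_ne_zero, not_false_eq_true,
        zero_pow, Finset.sum_const_zero]
      positivity
    · obtain ⟨y, hy⟩ : ∃ y : Fin 3 × Fin 3 → A, ∀ p, y p = c.D p.1 c.S * c.D p.2 F +
        c.D p.2 c.S * c.D p.1 F - c.ip c.S F * gN c.toFr s p.1 p.2 := ⟨_, fun _ => rfl⟩
      have b1 : ∀ i, c.H (tl c.toFr s F i) =
          -2 * (tl c.toFr s c.S i + y i) - 4 * c.S * tl c.toFr s F i := fun i => by
        rw [st_tl hK h hF t, e, hy]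
        simp only [tl, Lap, der_nf, Fin.sum_univ_three]
        ring
      have b2 : ∑ i, G.ev p (y i) ^ 2 ≤ 8 * C ^ 2 * ρ ^ 4 := by
        have := congrArg (G.ev p) (h.y_sq t)
        simp only [← hy, map_sum, map_pow, map_mul, map_ofNat] at this
        rw [this, mul_assoc]
        have := mul_le_mul (h2 p) (g1 p) (c.ev_ip_nonneg _ _) (by positivity)
        linarith
      have b3 : ∑ i, G.ev p (tl c.toFr s c.S i) ^ 2 ≤ 4 * C * ρ ^ 4 := by
        have := congrArg (G.ev p) (h.tl_sq tS)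
        simp only [Nf0, map_sum, map_pow, map_mul, map_ofNat, map_sub] at this
        nlinarith [h3 p, sq_nonneg (G.ev p (c.Lap c.S))]
      have b4 : ∑ i, (G.ev p (tl c.toFr s c.S i) + G.ev p (y i)) ^ 2 ≤ 24 * C ^ 2 * ρ ^ 4 := by
        refine (Finset.sum_le_sum (g := fun i => 2 * G.ev p (tl c.toFr s c.S i) ^ 2 +
          2 * G.ev p (y i) ^ 2) fun i _ => by
            nlinarith [sq_nonneg (G.ev p (tl c.toFr s c.S i) - G.ev p (y i))]).trans ?_
        rw [Finset.sum_add_distrib, ← Finset.mul_sum, ← Finset.mul_sum]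
        nlinarith [mul_nonneg (mul_nonneg (sub_nonneg.2 hC) (zero_le_one.trans hC))
          (pow_pos hρ 4).le]
      have b5 := Finset.sum_mul_sq_le_sq_mul_sq Finset.univ (fun i => G.ev p (tl c.toFr s F i))
        fun i => G.ev p (tl c.toFr s c.S i) + G.ev p (y i)
      have b6 : c.H (c.Nf (tl c.toFr s F) 0) =
          -4 * ∑ i, tl c.toFr s F i * (tl c.toFr s c.S i + y i) - 8 * c.S * c.Nf (tl c.toFr s F) 0 -
            2 * c.Nf (tl c.toFr s F) 1 := by
        rw [H_Nf0, Nf0, Finset.mul_sum, Finset.mul_sum, Finset.mul_sum, ← Finset.sum_sub_distrib]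
        exact congrArg (· - _) (Finset.sum_congr rfl fun i _ => by rw [b1]; ring)
      rw [b6]
      have b7 := c.ev_Nf_nonneg (G.ev p) (tl c.toFr s F) 1
      have b8 : ∑ i, G.ev p (tl c.toFr s F i) ^ 2 = G.ev p (c.Nf (tl c.toFr s F) 0) := by
        simp only [Nf0, map_sum, map_pow]
      rw [b8] at b5
      simp only [map_sub, map_mul, map_neg, map_ofNat, map_sum, map_add]
      have a4 : 0 < G.ev p (c.Nf (tl c.toFr s F) 0) := lt_of_le_of_lt (by positivity) a1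
      have a5 := abs_lt_of_sq_lt_sq (b5.trans_lt (show _ < (2 * ρ * G.ev p
        (c.Nf (tl c.toFr s F) 0)) ^ 2 by
          have a6 := mul_le_mul_of_nonneg_left b4 a4.le
          have a7 := mul_lt_mul_of_pos_left a1 (mul_pos a4 (pow_pos hρ 2))
          nlinarith)) (by positivity)
      nlinarith [(abs_lt.1 a5).1, mul_le_mul_of_nonneg_right (h1 p) a4.le]
  · have := G.sub (B := -(2 * ρ)) (-(2 * c.S - c.Lap F)) (hI _) (fun p hp => by
      simp only [map_neg, map_sub, map_mul, map_ofNat, L0 p hp]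
      linarith [h1 p]) (fun p _ => by rw [H_neg, Hu]; simp) q (hq q)
    rw [map_neg] at this
    linarith
  · obtain ⟨K, K0, hK'⟩ := G.bdd (c.ip (2 * c.S - c.Lap F) (2 * c.S - c.Lap F)) (hI 0)
    refine ⟨K / (η * ρ), by positivity, fun q e => ?_⟩
    refine (G.exp (k := -(2 * ρ)) (k' := -ρ) _ (hI _) K0.le (by linarith)
      (fun p hp => hK' p (by rw [hp]; simp)) (fun p _ a1 => ?_) q (hq q)).trans ?_
    · rw [st_H_ip hK (((inv_ofNat 2).mul inv_S).sub hF.lap), Hu, Spl.rip_eq tu,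
        c.ip_comm _ 0, c.ip_const (x := 0) fun a => map_zero _]
      simp only [map_sub, map_mul, map_ofNat, map_zero]
      nlinarith [ev_hsq c.toFr (G.ev p) (2 * c.S - c.Lap F), mul_le_mul_of_nonneg_right (h1 p) a1.le]
    · rw [e, sub_zero, neg_mul, Real.exp_neg, ← div_eq_mul_inv, div_le_iff₀ (Real.exp_pos _)]
      have := Real.add_one_le_exp (ρ * (K / (η * ρ)))
      rw [show ρ * (K / (η * ρ)) = K / η by field_simp] at *
      have a2 := mul_le_mul_of_nonneg_left this hη.le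
      rw [mul_add, mul_div_cancel₀ _ hη.ne'] at a2
      linarith

end Vale.Agent.P216RD
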