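import Vale.Agent.P216RD.Loc
import Vale.Agent.P216RD.Sta
import Vale.Agent.P216RD.Flo

/-! # Closed locally split ancient solutions satisfy the soliton equation -/

open scoped Manifold ContDiff Topology
open Set Filter

set_option linter.unusedSimpArgs false

noncomputable section

namespace Vale.Agent.P216RD

open P216R hiding RF
open P216D P216D.Fr P216D.Fl P216K P216ST P216MP

variable {M : Type} [TopologicalSpace M] [ChartedSpace E3 M] [IsManifold 𝓘(ℝ, E3) ∞ M]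
  {g : ℝ → Ten E3 M} {g₀ : Ten E3 M} {I : Set ℝ} {U : Set M} {x₀ : M} {C : ℝ}

/-- the approximate potential of one time slice -/
theorem sta (hm : MODEL) (hh : HEATI E3) (hg : Met g₀ U) (hc : IsCompact U) (hH : Hs U)
    (hU : IsPreconnected U) (hx₀ : x₀ ∈ U)
    (hs : ∀ x ∈ U, ∃ V ⊆ U, IsOpen V ∧ x ∈ V ∧ ∃ b, P216DC.Spl g₀ V b) (hC : 1 ≤ C)
    (h0 : ∀ x ∈ U, 0 < Sc g₀ x) (h1 : ∀ x ∈ U, ∀ y ∈ U, Sc g₀ x ≤ C * Sc g₀ y)
    (h2 : ∀ x ∈ U, RmB g₀ 1 x (C * √(Sc g₀ x) ^ 3) ∧ RmB g₀ 2 x (C * Sc g₀ x ^ 2)) {ε : ℝ}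
    (hε : 0 < ε) : ∃ F, Sm0 E3 F U ∧ ∃ a > 0, ∀ x ∈ U, ∀ e, ON (g₀ x) e →
      (∀ i, ∑ k, mm g₀ x e 0 ![] i k * df F x (e k) = 0) ∧
      ∑ q, ct g₀ F x e q ^ 2 ≤ 2 * (1296 * C ^ 10) ^ 2 * a ^ 2 ∧
      |lap g₀ F x - Sc g₀ x + a| ≤ ε * a := by
  have h := hg.fam (Ici 0)
  obtain ⟨m⟩ := hm M _ _ U h (iv_Ici 0) hc hH
  obtain ⟨s, hS⟩ := m.spl h (fun _ _ => hs) fun _ _ => h0
  obtain ⟨u, u1, u2, u3⟩ := hh M U _ 0 (fun _ _ => 0) (fun _ _ => 0) (fun _ x => -Sc g₀ x)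
    (fun _ => 0) hc hH h smF_zero smF_zero (fun a => (smF_Sc h a).neg) fun _ => contDiffOn_const
  obtain ⟨F, hF⟩ : ∃ F, m.Is F u := m.sc u u1
  have e := hF.H h (iv_Ici 0) (w := -(2 * m.c.S)) fun p => by
    have := u3 _ p.ht _ p.hx
    rw [gam_zero, zero_mul, add_zero, add_zero] at this
    rwa [map_neg, map_mul, map_ofNat, m.S]
  obtain ⟨ρ, hρ⟩ : ∃ ρ, ρ = Sc g₀ x₀ / (2 * C) := ⟨_, rfl⟩
  have C0 : 0 < C := by linarith
  have ρ0 : 0 < ρ := hρ ▸ div_pos (h0 _ hx₀) (by positivity)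
  have ρ1 : ∀ x ∈ U, Sc g₀ x ≤ 2 * C ^ 2 * ρ := fun x hx =>
    (h1 x hx _ hx₀).trans_eq (by rw [hρ]; field_simp)
  have C1 : C ^ 8 ≤ C ^ 10 := pow_le_pow_right₀ hC (by norm_num)
  have C2 : 1 ≤ C ^ 10 := one_le_pow₀ hC
  obtain ⟨t1, t2, t3, t4⟩ := static m.G (m.K0 (iv_Ici 0)) hS hF.1 e (ρ := ρ) (C := 1296 * C ^ 10)
    (fun p hp a => by
      have e0 : u p.t = fun _ => 0 := by rw [← m.tm, show m.G.ev p m.G.t = 0 from hp, u2]
      refine ⟨?_, fun b => ?_⟩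
      · rw [(hF.2 p).2.2.1, e0, df, mfderiv_const]; rfl
      · rw [(hF.2 p).2.2.2, e0, hess, hessG_apply]
        simp [show rd E3 (fun _ : M => (0 : ℝ)) p.x = fun _ => 0 from rfl])
    ρ0 (by linarith) (fun p => by
      rw [m.S', hρ, div_le_div_iff₀ (by positivity) two_pos]
      nlinarith [h1 _ hx₀ _ p.hx])
    (fun p => by
      have a1 : ∀ a, m.G.ev p (m.c.D a m.c.S) ^ 2 ≤ 9 * C ^ 2 * (2 * C ^ 2 * ρ) ^ 3 := fun a => by
        have b1 := h0 _ p.hx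
        refine (sq_le_sq' (abs_le.1 (m.bdS p (h2 _ p.hx).1 [a] rfl)).1
          (abs_le.1 (m.bdS p (h2 _ p.hx).1 [a] rfl)).2).trans ?_
        rw [mul_pow, mul_pow, ← pow_mul, mul_comm 3 2, pow_mul, Real.sq_sqrt b1.le, ← mul_assoc]
        have := ρ1 _ p.hx
        norm_num
        gcongr
      simp only [ip_self, Fin.sum_univ_three, map_add, map_pow]
      nlinarith [a1 0, a1 1, a1 2, mul_le_mul_of_nonneg_right C1 (pow_pos ρ0 3).le,
        mul_pos (pow_pos C0 10) (pow_pos ρ0 3)])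
    (fun p => by
      have a1 : ∀ a b, m.G.ev p (m.c.D a (m.c.D b m.c.S)) ^ 2 ≤ 144 * C ^ 10 * ρ ^ 4 := fun a b => by
        have b1 := h0 _ p.hx
        refine (sq_le_sq' (abs_le.1 (m.bdS p (h2 _ p.hx).2 [a, b] rfl)).1
          (abs_le.1 (m.bdS p (h2 _ p.hx).2 [a, b] rfl)).2).trans ?_
        have := ρ1 _ p.hx
        calc _ ≤ (3 * (C * (2 * C ^ 2 * ρ) ^ 2)) ^ 2 := by gcongr
          _ = _ := by ring
      simp only [hsq, Fin.sum_univ_three, map_add, map_pow]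
      linarith [a1 0 0, a1 0 1, a1 0 2, a1 1 0, a1 1 1, a1 1 2, a1 2 0, a1 2 1, a1 2 2])
  have v1 : SmF E3 (fun t x => Sc g₀ x - lap g₀ (u t) x) (Ici 0) U := fun a =>
    (smF_Sc h a).sub (smF_lap h u1 a)
  obtain ⟨v, hv⟩ : ∃ v, m.Is v _ := m.sc _ v1
  have v2 : 2 * m.c.S - m.c.Lap F = v := m.G.eq fun p => by
    rw [map_sub, map_mul, map_ofNat, m.S, hF.lap h, (hv.2 p).1]
  obtain ⟨D, D0, hD⟩ := osc hg hc hU hx₀
  obtain ⟨r, r0, hr⟩ := t4 ((ε * (2 * ρ) / D) ^ 2) (by positivity)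
  have v3 := smF_slice v1 r0
  have a0 := t3 (pt0 h r0 hx₀)
  rw [v2, (hv.2 _).1] at a0
  change 2 * ρ ≤ Sc g₀ x₀ - lap g₀ (u r) x₀ at a0
  have a1 := hD _ _ v3 (by positivity : 0 < ε * (2 * ρ) / D) fun y hy => by
    have := hr (pt0 h r0 hy) (m.tm _)
    simp only [v2, ip, map_sum, map_mul, (hv.2 _).2.2.1] at this
    rwa [gam_fr hg hy (pt0 h r0 hy).on hg.isOpen hy ((P216LS.sm0_iff' hg.isOpen).1 v3)
      ((P216LS.sm0_iff' hg.isOpen).1 v3)]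
  refine ⟨u r, smF_slice u1 r0, Sc g₀ x₀ - lap g₀ (u r) x₀, by linarith,
    fun x hx e he => ⟨fun i => ?_, ?_, ?_⟩⟩
  · have := congrArg (m.G.ev ⟨r, x, e, r0, hx, he⟩) (t1 i)
    simpa only [map_sum, map_mul, m.M0, (hF.2 _).2.2.1, map_zero] using this
  · have := t2 ⟨r, x, e, r0, hx, he⟩
    simp only [Nf0, map_sum, map_pow, hF.tl h hS] at this
    refine this.trans ?_
    have b1 := pow_le_pow_left₀ (by positivity) a0 2
    nlinarith [mul_le_mul_of_nonneg_left b1 (sq_nonneg (1296 * C ^ 10)),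
      mul_pos (pow_pos (by positivity : 0 < 1296 * C ^ 10) 2) (pow_pos ρ0 2)]
  · have := a1 x hx
    rw [div_mul_cancel₀ _ D0.ne', abs_sub_comm] at this
    refine le_trans (le_of_eq ?_) (this.trans (mul_le_mul_of_nonneg_left a0 hε.le))
    congr 1
    ring

lemma Mod.log (m : Mod g I U) (h : Fam g I U) (h0 : ∀ t ∈ I, ∀ x ∈ U, 0 < Sc (g t) x) {s : m.A}
    (hS : Spl m.c.toFr s) : ∃ L, m.Is L (fun t x => Real.log (Sc (g t) x)) ∧
      ∀ a, m.c.D a L = s * m.c.D a m.c.S := by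
  obtain ⟨L, hL⟩ : ∃ L, m.Is L fun t x => Real.log (Sc (g t) x) :=
    m.sc (fun t x => Real.log (Sc (g t) x)) fun a => (smF_Sc h a).log
      fun p hp => (h0 _ hp.1 _ hp.2.2).ne'
  have e2 : ∀ p, m.G.ev p (2 * m.c.S) = Sc (g p.t) p.x := fun p => by
    rw [map_mul, map_ofNat, m.S]
  obtain ⟨L', hL'⟩ := m.G.comp Real.log (2 * m.c.S) fun p =>
    Real.contDiffAt_log.2 (by rw [e2]; exact (h0 _ p.ht _ p.hx).ne')
  refine ⟨L, hL, fun a => m.G.eq fun p => ?_⟩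
  rw [show L = L' from m.G.eq fun p => by rw [(hL.2 p).1, (hL' p).1, e2], (hL' p).2.1,
    Real.deriv_log, e2, map_mul (m.G.ev p), m.ev_s hS]
  simp only [der_nf, map_add, map_mul, map_ofNat, map_zero]
  ring

lemma exists_T {B κ b δ : ℝ} (hκ : 0 < κ) (hδ : 0 < δ) :
    ∃ T, 1 ≤ T ∧ B * Real.exp (κ * (Real.log (b + 1) - Real.log (b + T))) ≤ δ := by
  have h1 : Tendsto (fun T => B * Real.exp (κ * (Real.log (b + 1) - Real.log (b + T)))) atTop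
      (𝓝 (B * 0)) := by
    refine (Real.tendsto_exp_atBot.comp (Tendsto.const_mul_atBot hκ ?_)).const_mul B
    exact tendsto_atBot_add_const_left _ _ (tendsto_neg_atTop_atBot.comp
      (Real.tendsto_log_atTop.comp (tendsto_atTop_add_const_left _ _ tendsto_id)))
  exact ((eventually_ge_atTop 1).and (h1.eventually (ge_mem_nhds (by simpa)))).exists

lemma cF_le (K : ℝ) {η : ℝ} (hη : 0 < η) : ∃ δ > 0, √(cF K * δ) ≤ η := by
  refine ⟨η ^ 2 / (|cF K| + 1), by positivity, Real.sqrt_le_iff.2 ⟨hη.le, ?_⟩⟩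
  rw [← mul_div_assoc, div_le_iff₀ (by positivity)]
  nlinarith [le_abs_self (cF K), sq_nonneg η]

/-- the almost soliton equation -/
theorem step (hm : MODEL) (hh : HEAT E3) (hh' : HEATI E3) (hc : IsCompact U) (hH : Hs U)
    (hU : IsPreconnected U) (hx₀ : x₀ ∈ U) (hg : P216R.RF g (Iic 0) U) (hs : LSp g (Iic 0) U)
    (hC : 1 ≤ C) (h0 : ∀ t ≤ 0, ∀ x ∈ U, 0 < Sc (g t) x)
    (h1 : ∀ t ≤ 0, ∀ x ∈ U, ∀ y ∈ U, Sc (g t) x ≤ C * Sc (g t) y)
    (h2 : ∀ t ≤ 0, ∀ x ∈ U, RmB (g t) 1 x (C * √(Sc (g t) x) ^ 3) ∧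
      RmB (g t) 2 x (C * Sc (g t) x ^ 2)) {η : ℝ} (hη : 0 < η) :
    ∃ τ, ∀ x ∈ U, ∀ e, ON (g 0 x) e → ∀ i j,
      |τ * (hess (g 0) (fun x => Real.log (Sc (g 0) x)) x (e i) (e j) +
          Sc (g 0) x / 2 * gn (g 0) x e i j) - gn (g 0) x e i j| ≤
        η * (4 * |(Sc (g 0) x / 2)⁻¹| + 4 * (|(Sc (g 0) x / 2)⁻¹| *
          |df (fun x => Real.log (Sc (g 0) x)) x (e i)|) + 1 + |gn (g 0) x e i j|) := by
  have hs' : ∀ t ≤ 0, ∀ x ∈ U, ∃ V ⊆ U, IsOpen V ∧ x ∈ V ∧ ∃ b, P216DC.Spl (g t) V b :=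
    fun t ht x hx => let ⟨V, a1, a2, a3, b, a4⟩ := hs x hx; ⟨V, a1, a2, a3, b, a4 t ht⟩
  obtain ⟨σ, hσ⟩ : ∃ σ, σ = C * Sc (g 0) x₀ := ⟨_, rfl⟩
  have C0 : 0 < C := by linarith
  have s0 := h0 0 le_rfl _ hx₀
  have σ0 : 0 < σ := hσ ▸ mul_pos C0 s0
  obtain ⟨K, hK⟩ : ∃ K, K = σ + 9 * (C * √σ ^ 3) + 9 * (C * σ ^ 2) := ⟨_, rfl⟩
  obtain ⟨δ, δ0, hδ⟩ := cF_le K hη
  obtain ⟨T, hT, h3⟩ := exists_T (B := 2 * (1296 * C ^ 10) ^ 2) (b := (3 * (Sc (g 0) x₀ / 2))⁻¹)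
    (by positivity : 0 < 1 / (3 * C)) δ0
  have hI : Icc (-T) 0 ⊆ Iic 0 := Icc_subset_Iic_self
  have hT' : -T < 0 := by linarith
  have h := hg.mono_time hI
  have iv := iv_Icc hT'
  obtain ⟨F, F1, a, a0, F2⟩ := sta hm hh' (hg.met hT'.le) hc hH hU hx₀ (hs' _ hT'.le) hC
    (h0 _ hT'.le) (h1 _ hT'.le) (h2 _ hT'.le)
    (by positivity : 0 < √(δ * Real.exp (-(5 * σ * T))))
  obtain ⟨m⟩ := hm M _ _ U h.toFam iv hc hH
  obtain ⟨s, hS⟩ := m.spl h.toFam (fun t ht => hs' t ht.2) fun t ht => h0 t ht.2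
  obtain ⟨u, u1, u2, u3⟩ := hh M U g _ _ (fun _ _ => 0) (fun _ _ => 0) (fun _ _ => 0) F hc hH hT'
    h.toFam smF_zero smF_zero smF_zero F1
  obtain ⟨f, hf⟩ : ∃ f, m.Is f u := m.sc u u1
  have e1 := hf.H h.toFam iv (w := 0) fun p => by
    have := u3 _ p.ht _ p.hx
    rw [map_zero]
    rwa [gam_zero, zero_mul, add_zero, add_zero] at this
  obtain ⟨L, hL, L1⟩ := m.log h.toFam (fun t ht => h0 t ht.2) hS
  have cv := GM.curv (c := m.rf h iv) m.G hS (fun r hr => ⟨hr.2, Icc_subset_Icc_left hr.1⟩) C0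
    (fun p => by
      change 0 < m.G.ev p m.c.S
      rw [m.S']; exact half_pos (h0 _ p.ht.2 _ p.hx))
    (fun p q hpq => by
      change m.G.ev p m.c.S ≤ C * m.G.ev q m.c.S
      have := h1 _ p.ht.2 _ p.hx _ q.hx
      rw [m.S', m.S', ← (m.tm p).symm.trans (Eq.trans hpq (m.tm q))]
      linarith)
    (o := pt0 h.toFam ⟨hT'.le, le_rfl⟩ hx₀) (m.tm _)
  have c1 : ∀ p : FP g (Icc (-T) 0) U, Sc (g p.t) p.x ≤ σ := fun p => by
    have : m.G.ev p m.c.S ≤ C * m.G.ev _ m.c.S := (cv p).1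
    rw [m.S', m.S'] at this
    change _ ≤ C * (Sc (g 0) x₀ / 2) at this
    linarith
  have k1 : 0 ≤ C * √σ ^ 3 := by positivity
  have k2 : 0 ≤ C * σ ^ 2 := by positivity
  refine ⟨2 * (a⁻¹ - T), fun x hx e he i j => ?_⟩
  have := flow (c := m.rf h iv) (τ₀ := a⁻¹) (K := K) (K₂ := σ) (ε := √(δ * Real.exp (-(5 * σ * T))))
    m.G hT hS (f := a⁻¹ • f) (L := L) (fun k => by
      change m.c.V k _ = 0
      rw [Derivation.map_smul, hf.1, smul_zero])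
    (by change m.c.H _ = 0; rw [H_smul, e1, smul_zero]) L1 (by rw [hK]; positivity)
    (by positivity) (by positivity) δ0 (by positivity) σ0 (fun p hp => ?_) (fun p _ => ?_)
    (fun p => ?_) h3 (by
      rw [Real.sq_sqrt (by positivity), mul_assoc, ← Real.exp_add, neg_add_cancel, Real.exp_zero,
        mul_one]) ⟨0, x, e, ⟨hT'.le, le_rfl⟩, hx, he⟩ (m.tm _) i j
  · change |_ * m.G.ev _ (m.c.D i (m.c.D j L) + m.c.S * gN m.c.toFr s i j) -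
      m.G.ev _ (gN m.c.toFr s i j)| ≤ _ * (4 * |m.G.ev _ s| + 4 * (|m.G.ev _ s| *
        |m.G.ev _ (m.c.D i L)|) + 1 + |m.G.ev _ (gN m.c.toFr s i j)|) at this
    rw [map_add, map_mul, m.ev_gN hS, m.ev_s hS, (hL.2 _).2.2.2, (hL.2 _).2.2.1, m.S'] at this
    exact this.trans (mul_le_mul_of_nonneg_right hδ (by positivity))
  · have e0 : p.t = -T := (m.tm p).symm.trans hp
    rw [show g (-T) = g p.t by rw [e0], show F = u p.t by rw [e0, u2]] at F2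
    obtain ⟨b1, b2, b3⟩ := F2 _ p.hx p.e p.on
    refine ⟨fun i => ?_, ?_, ?_⟩
    · change ∑ k, m.G.ev p (m.c.M i k) * m.G.ev p (m.c.D k _) = 0
      simp only [Derivation.map_smul, map_smul, m.M0, (hf.2 _).2.2.1, smul_eq_mul, mul_left_comm _ a⁻¹,
        ← Finset.mul_sum, b1, mul_zero]
    · have t1 : ∀ q, tl m.c.toFr s (a⁻¹ • f) q = a⁻¹ • tl m.c.toFr s f q := fun q => by
        simp only [tl, Derivation.map_smul, Lap_smul, smul_sub, mul_smul_comm, smul_mul_assoc]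
      change m.G.ev p (m.c.Nf (tl m.c.toFr s _) 0) ≤ _
      simp only [Nf0, t1, map_sum, map_pow, map_smul, hf.tl h.toFam hS, smul_eq_mul, mul_pow,
        ← Finset.mul_sum] at b2 ⊢
      rw [inv_pow, inv_mul_le_iff₀ (by positivity)]
      linarith
    · change |m.G.ev p (m.c.Lap _) - 2 * a⁻¹ * m.G.ev p m.c.S + 1| ≤ _
      rw [Lap_smul, map_smul, hf.lap h.toFam, m.S', smul_eq_mul]
      refine le_trans (le_of_eq ?_) ((div_le_iff₀ a0).2 b3)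
      rw [← abs_of_pos a0, ← abs_div, abs_of_pos a0]
      congr 1
      field_simp
  · have d1 : RmB (g p.t) 1 p.x (C * √σ ^ 3) := fun v hv =>
      ((h2 _ p.ht.2 _ p.hx).1 v hv).trans (by gcongr; exact c1 p)
    have d2 : RmB (g p.t) 2 p.x (C * σ ^ 2) := fun v hv =>
      ((h2 _ p.ht.2 _ p.hx).2 v hv).trans (by
        have := (h0 _ p.ht.2 _ p.hx).le
        gcongr; exact c1 p)
    have d0 := h0 _ p.ht.2 _ p.hx
    have d3 := c1 p
    refine ⟨fun i hi => Real.sqrt_le_iff.2 ⟨by rw [hK]; positivity, ?_⟩, fun w hw => ?_⟩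
    · change m.G.ev p (m.c.N i) ≤ _
      interval_cases i
      · rw [N_zero, hS.rk.N0, map_pow, m.S']
        exact pow_le_pow_left₀ (by linarith) (by linarith) 2
      · refine (m.bdN p d1).trans (le_trans (by nlinarith)
          (pow_le_pow_left₀ (by positivity) (show 9 * (C * √σ ^ 3) ≤ K by linarith) 2))
      · refine (m.bdN p d2).trans (le_trans (by nlinarith)
          (pow_le_pow_left₀ (by positivity) (show 9 * (C * σ ^ 2) ≤ K by linarith) 2))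
    · change |m.G.ev p (m.c.Dw w (2 * m.c.S))| ≤ _
      rw [Dw_const_mul _ _ fun a => der_ofNat _ 2, map_mul, map_ofNat, abs_mul, abs_two]
      rcases hl : w.length with _ | _ | _ | n
      · rw [List.length_eq_zero_iff.1 hl, Dw_nil, m.S', abs_of_pos (half_pos d0)]
        linarith
      · linarith [m.bdS p d1 w hl]
      · linarith [m.bdS p d2 w hl]
      · omega
  · refine ⟨?_, ?_⟩
    · change m.G.ev p m.c.S ≤ σ
      rw [m.S']
      linarith [c1 p, h0 _ p.ht.2 _ p.hx]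
    · exact (cv p).2.trans_eq (congrArg (fun z => _ * ((3 * z)⁻¹ - _))
        (m.S' (pt0 h.toFam ⟨hT'.le, le_rfl⟩ hx₀)))

lemma gn_split {V : Set M} {b : M → ℝ} {x : M} {e : Fin 3 → E3} (hg : Met g₀ V)
    (hb : P216DC.Spl g₀ V b) (hx : x ∈ V) (he : ON (g₀ x) e) (h0 : 0 < Sc g₀ x) (i j : Fin 3) :
    gn g₀ x e i j = dl i j - df b x (e i) * df b x (e j) := by
  have h := hg.fam univ
  have s := fp_S (h := h) (hI := iv_univ) (hs := mem_univ 0) (hy := hx) (hf := he)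
  have m0 : ev _ ((cl h iv_univ x).fr.M i j) = mm g₀ x e 0 ![] i j :=
    fp_Dw_M (h := h) (hI := iv_univ) (hs := mem_univ 0) (hy := hx) (hf := he) 0 ![] i j
  have r := fp_Ric (h := h) (hI := iv_univ) (hs := mem_univ 0) (hy := hx) (hf := he) i j
  rw [Fr.Ric, map_sub, map_zsmul, m0, (split hg hb hx he).1, zsmul_eq_mul,
    eq_div_of_mul_eq two_ne_zero ((mul_comm _ _).trans s)] at r
  rw [gn, ← r]
  field_simp

/-- the potential of a closed locally split ancient solution -/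
theorem k1a (hm : MODEL) (hh : HEAT E3) (hh' : HEATI E3) : K1A := by
  intro M _ _ _ g U C hc hH hU hg hs h0 h1 h2
  rcases U.eq_empty_or_nonempty with rfl | ⟨x₀, hx₀⟩
  · exact ⟨0, fun V hV _ _ _ x hx => (hV hx).elim⟩
  have hC : 1 ≤ C := by
    have := h1 0 le_rfl _ hx₀ _ hx₀
    nlinarith [h0 0 le_rfl _ hx₀]
  have g0 := hg.met (t := 0) self_mem_Iic
  have h := g0.fam (Ici 0)
  have st := fun η (hη : 0 < η) => step hm hh hh' hc hH hU hx₀ hg hs hC h0 h1 h2 hη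
  obtain ⟨L, hL⟩ : ∃ L, L = fun x => Real.log (Sc (g 0) x) := ⟨_, rfl⟩
  have sL : ContMDiffOn 𝓘(ℝ, E3) 𝓘(ℝ, ℝ) ∞ L U := (P216LS.sm0_iff' g0.isOpen).1 fun a =>
    hL ▸ (smF_slice (smF_Sc h) self_mem_Ici a).log fun p hp => (h0 0 le_rfl _ hp.2).ne'
  rw [← hL] at st ⊢
  obtain ⟨B, hB⟩ : ∃ B : M → (Fin 3 → E3) → Fin 3 → Fin 3 → ℝ, B = fun x e i j =>
    hess (g 0) L x (e i) (e j) + Sc (g 0) x / 2 * gn (g 0) x e i j := ⟨_, rfl⟩
  obtain ⟨c, hc'⟩ : ∃ c : M → (Fin 3 → E3) → Fin 3 → Fin 3 → ℝ, c = fun x e i j =>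
    4 * |(Sc (g 0) x / 2)⁻¹| + 4 * (|(Sc (g 0) x / 2)⁻¹| * |df L x (e i)|) + 1 +
      |gn (g 0) x e i j| := ⟨_, rfl⟩
  have st' : ∀ η > 0, ∃ τ, ∀ x ∈ U, ∀ e, ON (g 0 x) e → ∀ i j,
      |τ * B x e i j - gn (g 0) x e i j| ≤ η * c x e i j := by rw [hB, hc']; exact st
  obtain ⟨e₀, he₀⟩ : ∃ e, ON (g 0 x₀) e := ⟨_, (pt0 h self_mem_Ici hx₀).on⟩
  have tr : gn (g 0) x₀ e₀ 0 0 + gn (g 0) x₀ e₀ 1 1 + gn (g 0) x₀ e₀ 2 2 = 2 := by
    obtain ⟨V, a1, a2, a3, b, a4⟩ := hs x₀ hx₀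
    have := (split (g0.mono a2 a1) (a4 0 self_mem_Iic) a3 he₀).2.2
    simp only [gn_split (g0.mono a2 a1) (a4 0 self_mem_Iic) a3 he₀ (h0 0 le_rfl _ hx₀), eps_nf,
      Fin.sum_univ_three, Int.cast_one] at this ⊢
    linarith
  obtain ⟨r, hr⟩ : ∃ r, r = B x₀ e₀ 0 0 + B x₀ e₀ 1 1 + B x₀ e₀ 2 2 := ⟨_, rfl⟩
  have key : ∀ x ∈ U, ∀ e, ON (g 0 x) e → ∀ i j, 2 * B x e i j = r * gn (g 0) x e i j := by
    intro x hx e he i j
    obtain ⟨k, hk⟩ : ∃ k, k = (c x₀ e₀ 0 0 + c x₀ e₀ 1 1 + c x₀ e₀ 2 2) * |B x e i j| +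
      |r| * c x e i j := ⟨_, rfl⟩
    refine sub_eq_zero.1 (abs_nonpos_iff.1 (le_of_forall_pos_le_add fun ε hε => ?_))
    obtain ⟨τ, hτ⟩ := st' (ε / (|k| + 1)) (by positivity)
    have a1 : |τ * r - 2| ≤ ε / (|k| + 1) * (c x₀ e₀ 0 0 + c x₀ e₀ 1 1 + c x₀ e₀ 2 2) := by
      have := fun i => abs_le.1 (hτ _ hx₀ _ he₀ i i)
      rw [hr, abs_le]
      constructor <;> linarith [this 0, this 1, this 2]
    calc _ = |r * (τ * B x e i j - gn (g 0) x e i j) - (τ * r - 2) * B x e i j| := by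
          congr 1; ring
      _ ≤ |r| * (ε / (|k| + 1) * c x e i j) +
          ε / (|k| + 1) * (c x₀ e₀ 0 0 + c x₀ e₀ 1 1 + c x₀ e₀ 2 2) * |B x e i j| := by
          refine (abs_sub _ _).trans ?_
          rw [abs_mul, abs_mul]
          have := hτ _ hx _ he i j
          gcongr
      _ = ε / (|k| + 1) * k := by rw [hk]; ring
      _ ≤ _ := by
          rw [zero_add, div_mul_eq_mul_div, div_le_iff₀ (by positivity)]
          nlinarith [le_abs_self k]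
  refine ⟨r, fun V hV hV' b hb x hx => ?_⟩
  have hx' := hV hx
  have s0 := h0 0 le_rfl _ hx'
  obtain ⟨p, hp⟩ : ∃ p, p = pt0 h self_mem_Ici hx' := ⟨_, rfl⟩
  have px : p.x = x := by rw [hp]; rfl
  have he : ON (g 0 x) p.e := px ▸ p.on
  obtain ⟨s1, -, s2⟩ := split (g0.mono hV' hV) hb hx he
  refine ⟨?_, fun v w => ?_⟩
  · obtain ⟨m⟩ := hm M _ _ U h (iv_Ici 0) hc hH
    obtain ⟨s, hS⟩ := m.spl h (fun _ _ x hx =>
      let ⟨V, a1, a2, a3, b, a4⟩ := hs x hx; ⟨V, a1, a2, a3, b, a4 0 self_mem_Iic⟩)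
      fun _ _ => h0 0 le_rfl
    obtain ⟨l, l1, l2⟩ := m.log h (fun _ _ => h0 0 le_rfl) hS
    have t1 : ∀ a, ∑ k, m.c.M a k * m.c.D k l = 0 := fun a => by
      simp only [l2, mul_left_comm _ s, ← Finset.mul_sum, hS.tg_S a, mul_zero]
    have t2 := fun a => congrArg (m.G.ev p) (t1 a)
    simp only [map_add, map_mul, m.M0, (l1.2 p).2.2.1, map_zero, px, s1, ← hL,
      Fin.sum_univ_three] at t2 s2
    rw [gam_fr g0 hx' he hV' hx (sL.mono hV) hb.smooth, Fin.sum_univ_three]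
    refine mul_left_cancel₀ (half_pos s0).ne' ?_
    linear_combination df b x (p.e 0) * t2 0 + df b x (p.e 1) * t2 1 + df b x (p.e 2) * t2 2 -
      Sc (g 0) x / 2 * (df L x (p.e 0) * df b x (p.e 0) + df L x (p.e 1) * df b x (p.e 1) +
        df L x (p.e 2) * df b x (p.e 2)) * s2
  · have t1 : ∀ i j, hess (g 0) L x (p.e i) (p.e j) = (r - Sc (g 0) x) / 2 *
        (g 0 x (p.e i) (p.e j) - df b x (p.e i) * df b x (p.e j)) := fun i j => by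
      have := key x hx' _ he i j
      simp only [hB, gn_split (g0.mono hV' hV) hb hx he s0] at this
      rw [he i j]
      linarith
    obtain ⟨α, rfl⟩ : ∃ α : Fin 3 → ℝ, v = ∑ a, α a • p.e a := ⟨_, he.expand v⟩
    obtain ⟨γ, rfl⟩ : ∃ γ : Fin 3 → ℝ, w = ∑ a, γ a • p.e a := ⟨_, he.expand w⟩
    rw [show Real.exp (L x) = Sc (g 0) x by rw [hL]; exact Real.exp_log s0]
    simp only [df_eq hV' hb.smooth hx] at t1 ⊢
    simp only [Fin.sum_univ_three, map_add, map_smul, _root_.add_apply,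
      _root_.smul_apply, smul_eq_mul, t1]
    ring

end Vale.Agent.P216RD
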