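import Vale.Agent.P216D.Words
import Vale.Agent.P216MP.Rank1

/-! # Identities for the traceless Hessian on a locally split three manifold -/

set_option linter.unusedSimpArgs false

namespace Vale.Agent.P216RD

open P216D P216D.Fr P216D.Fl P216MP

variable {A : Type*} [CommRing A] [Algebra ℝ A]

/-- the curvature term of the Lichnerowicz Laplacian -/
def zz (c : Fr A) (f : A) (a b : Fin 3) : A :=
  dl a b • (c.S * c.Lap f - ∑ i, ∑ k, c.M i k * c.D i (c.D k f)) - c.S * c.D a (c.D b f) +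
    ∑ k, c.M a k * c.D b (c.D k f) + ∑ k, c.M b k * c.D a (c.D k f) - c.Lap f * c.M a b

lemma lap_hess {c : Fr A} {f : A} (hf : c.Inv f) (a b : Fin 3) : c.Lap (c.D a (c.D b f)) =
    c.D a (c.D b (c.Lap f)) + ∑ k, c.D a (c.Ric b k) * c.D k f +
      ∑ k, c.Ric b k * c.D a (c.D k f) + ∑ k, c.Ric a k * c.D b (c.D k f) -
      (dl a b • c.ip c.S f - c.D b c.S * c.D a f + ∑ k, c.D b (c.M a k) * c.D k f -
        ∑ k, c.D k (c.M a b) * c.D k f) - 2 * zz c f a b := by
  rw [c.Lap_D, hf.Lap_D]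
  simp only [hf.VD]
  revert a b
  refine all3 (all3 ?_ ?_ ?_) (all3 ?_ ?_ ?_) (all3 ?_ ?_ ?_) <;>
  · simp only [zz, ip, Lap, Fin.sum_univ_three, eps_nf, zs_nf, der_nf, c.nfD, c.nfM, hf _]
    ring

lemma H_hess {c : RF A} {f : A} (hf : c.Inv f) (a b : Fin 3) :
    c.H (c.D a (c.D b f)) = c.D a (c.D b (c.H f)) + 2 * zz c.toFr f a b := by
  rw [c.H_D, RF.H_D_inv hf]
  simp only [hf.VD]
  revert a b
  refine all3 (all3 ?_ ?_ ?_) (all3 ?_ ?_ ?_) (all3 ?_ ?_ ?_) <;>
  · simp only [zz, Lap, Fin.sum_univ_three, eps_nf, zs_nf, der_nf, c.nfD, c.nfM, hf _]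
    ring

/-- the curvature of a local product of a positively curved surface with a line -/
structure Spl (c : Fr A) (s : A) : Prop where
  inv : c.S * s = 1
  rk : Rk1 c
  par : Par c

/-- the gradient is tangent to the surface -/
def Tg (c : Fr A) (f : A) : Prop := ∀ a, ∑ k, c.M a k * c.D k f = 0

/-- the metric of the surface -/
def gN (c : Fr A) (s : A) (a b : Fin 3) : A := s * c.Ric a b

/-- twice the traceless Hessian -/
def tl (c : Fr A) (s f : A) (p : Fin 3 × Fin 3) : A :=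
  2 * c.D p.1 (c.D p.2 f) - c.Lap f * gN c s p.1 p.2

/-- the normal part of the gradient -/
def nr (c : Fr A) (s f : A) (a : Fin 3) : A := ∑ k, s * c.M a k * c.D k f

namespace Spl

variable {c : Fr A} {s f : A} (h : Spl c s)
include h

lemma cancel {x y : A} (e : c.S * x = c.S * y) : x = y := by
  linear_combination s * e - (x - y) * h.inv

lemma der (X : Derivation ℝ A A) : c.S * X s = -s * X c.S := by
  have := congrArg X h.inv
  simp only [der_nf] at this
  linear_combination this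

lemma inv_s : c.Inv s := fun a => h.cancel (by rw [h.der, c.VS, mul_zero, mul_zero])

lemma ric (a b : Fin 3) : c.Ric a b = c.S * gN c s a b := by
  rw [gN]; linear_combination -c.Ric a b * h.inv

lemma D_gN (d a b : Fin 3) : c.D d (gN c s a b) = 0 := h.cancel (by
  rw [gN, der_mul]
  linear_combination s * h.par.ric d a b + c.Ric a b * h.der (c.D d))

lemma D_P (d a b : Fin 3) : c.D d (s * c.M a b) = 0 := h.cancel (by
  rw [der_mul]
  linear_combination s * h.par d a b + c.M a b * h.der (c.D d))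

lemma D_ric (d a b : Fin 3) : c.D d (c.Ric a b) = c.D d c.S * gN c s a b := by
  rw [h.ric, der_mul, h.D_gN]; ring

lemma M_eq (a b : Fin 3) : c.M a b = c.S * (dl a b • 1 - gN c s a b) := by
  rw [c.M_eq, h.ric, mul_sub, mul_smul_comm, mul_one]

lemma D_M (d a b : Fin 3) : c.D d (c.M a b) = c.D d c.S * (dl a b • 1 - gN c s a b) := by
  rw [h.M_eq, der_mul, map_sub, map_zsmul, h.D_gN, Derivation.map_one_eq_zero]
  simp [mul_comm]

lemma tg_S : Tg c c.S := fun a => by
  rw [← h.par.div a]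
  exact Finset.sum_congr rfl fun k _ => by rw [c.M_symm, mul_comm]

lemma tr_gN : ∑ a, gN c s a a = 2 := by
  simp only [gN, ← Finset.mul_sum, tr_Ric]
  linear_combination 2 * h.inv

lemma gN_sq : ∑ a, ∑ b, gN c s a b ^ 2 = 2 := by
  have := h.rk.rsq
  simp only [gN, rsq, Fin.sum_univ_three] at *
  linear_combination s ^ 2 * this + 2 * (c.S * s + 1) * h.inv

lemma V_gN (d a b : Fin 3) : c.V d (gN c s a b) =
    ∑ e, eps d a e • gN c s e b + ∑ e, eps d b e • gN c s a e := by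
  rw [gN, der_mul, h.inv_s d, c.VRic]
  simp only [gN, mul_add, Finset.mul_sum, mul_smul_comm, mul_zero, add_zero]

lemma tg_of (e : ∀ a, nr c s f a = 0) : Tg c f := fun a => by
  have := e a
  simp only [nr, Fin.sum_univ_three] at *
  linear_combination c.S * this -
    (c.M a 0 * c.D 0 f + c.M a 1 * c.D 1 f + c.M a 2 * c.D 2 f) * h.inv

variable (t : Tg c f)
include t

lemma DMf (d a : Fin 3) : ∑ k, c.D d (c.M a k) * c.D k f = 0 := h.cancel (by
  have := t a
  simp only [Fin.sum_univ_three] at *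
  linear_combination c.D d c.S * this + c.D 0 f * h.par d a 0 + c.D 1 f * h.par d a 1 +
    c.D 2 f * h.par d a 2)

lemma Mh (d a : Fin 3) : ∑ k, c.M a k * c.D d (c.D k f) = 0 := by
  have h1 := congrArg (c.D d) (t a)
  have h2 := h.DMf t d a
  simp only [Fin.sum_univ_three, der_nf] at *
  linear_combination h1 - h2

omit h in
lemma ricf (a : Fin 3) : ∑ k, c.Ric a k * c.D k f = c.S * c.D a f := by
  have := t a
  revert a
  refine all3 ?_ ?_ ?_ <;>
  · simp only [Ric, Fin.sum_univ_three, eps_nf, zs_nf]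
    intro h
    linear_combination -h

lemma rich (d a : Fin 3) : ∑ k, c.Ric a k * c.D d (c.D k f) = c.S * c.D d (c.D a f) := by
  have := h.Mh t d a
  revert a
  refine all3 ?_ ?_ ?_ <;>
  · simp only [Ric, Fin.sum_univ_three, eps_nf, zs_nf]
    intro h
    linear_combination -h

lemma gf (a : Fin 3) : ∑ k, gN c s a k * c.D k f = c.D a f := by
  have := ricf t a
  simp only [gN, Fin.sum_univ_three] at *
  linear_combination s * this + c.D a f * h.inv

omit h in
lemma rip_eq : c.rip f f = c.S * c.ip f f := by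
  have := ricf t
  simp only [rip, ip, Fin.sum_univ_three] at *
  linear_combination c.D 0 f * this 0 + c.D 1 f * this 1 + c.D 2 f * this 2

lemma rhs_eq : c.rhs f = c.S * c.Lap f := by
  have := fun a => h.rich t a a
  simp only [rhs, Lap, Fin.sum_univ_three] at *
  linear_combination this 0 + this 1 + this 2

lemma zz_eq (a b : Fin 3) : zz c f a b = c.S * (c.Lap f * gN c s a b - c.D a (c.D b f)) := by
  simp only [zz, h.Mh t, Finset.sum_const_zero, sub_zero, add_zero]
  rw [h.M_eq, zsmul_eq_mul, zsmul_eq_mul]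
  ring

lemma tl_sq : c.Nf (tl c s f) 0 = 4 * c.hsq f - 2 * c.Lap f ^ 2 := by
  have h1 := h.gN_sq
  have h2 := h.rhs_eq t
  simp only [Nf, Qf_zero, Fintype.sum_prod_type, tl, hsq, rhs, h.ric, Fin.sum_univ_three] at *
  refine h.cancel ?_
  linear_combination c.S * c.Lap f ^ 2 * h1 - 4 * c.Lap f * h2

variable (hf : c.Inv f)
include hf

lemma tg_lap : Tg c (c.Lap f) := fun a => by
  have h1 := fun d => congrArg (c.D d) (h.Mh t d a)
  have h2 := fun k => hf.Lap_D k
  have h3 := fun d => h.Mh t d a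
  have h4 := t a
  simp only [ricf t] at h2
  refine h.cancel ?_
  simp only [Lap, Fin.sum_univ_three, der_nf] at *
  linear_combination c.S * (h1 0 + h1 1 + h1 2) -
    c.S * (c.M a 0 * h2 0 + c.M a 1 * h2 1 + c.M a 2 * h2 2) - c.S ^ 2 * h4 -
    (c.D 0 c.S * h3 0 + c.D 1 c.S * h3 1 + c.D 2 c.S * h3 2) -
    (c.D 0 (c.D 0 f) * h.par 0 a 0 + c.D 0 (c.D 1 f) * h.par 0 a 1 +
      c.D 0 (c.D 2 f) * h.par 0 a 2) -
    (c.D 1 (c.D 0 f) * h.par 1 a 0 + c.D 1 (c.D 1 f) * h.par 1 a 1 +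
      c.D 1 (c.D 2 f) * h.par 1 a 2) -
    (c.D 2 (c.D 0 f) * h.par 2 a 0 + c.D 2 (c.D 1 f) * h.par 2 a 1 +
      c.D 2 (c.D 2 f) * h.par 2 a 2)

lemma lap_tl (p : Fin 3 × Fin 3) : c.Lap (tl c s f p) = tl c s (c.Lap f) p +
    2 * (c.D p.1 c.S * c.D p.2 f + c.D p.2 c.S * c.D p.1 f - c.ip c.S f * gN c s p.1 p.2) +
    4 * c.S * tl c s f p := by
  obtain ⟨a, b⟩ := p
  have h1 := h.gf t b
  simp only [tl, Lap_sub, Lap_mul, c.Lap_const (h.D_gN · a b), c.ip_comm _ (gN c s a b),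
    c.ip_const (h.D_gN · a b), c.Lap_const (x := 2) fun a => der_ofNat _ 2,
    c.ip_const (x := 2) fun a => der_ofNat _ 2, lap_hess hf, h.rich t, h.DMf t, h.zz_eq t,
    hf.hess_symm b a]
  simp only [h.D_ric, h.D_M, ip, zsmul_eq_mul, Fin.sum_univ_three] at *
  linear_combination 2 * c.D a c.S * h1

lemma div_tl (b : Fin 3) :
    ∑ a, c.D a (tl c s f (a, b)) = c.D b (c.Lap f) + 2 * c.S * c.D b f := by
  have h1 := hf.Lap_D b
  have h2 := h.gf (h.tg_lap t hf) b
  rw [ricf t] at h1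
  simp only [gN, c.Ric_symm b] at h2
  have h3 := fun a => h.D_gN a a b
  simp only [tl, der_nf, h3]
  simp only [gN, Lap, Fin.sum_univ_three] at *
  linear_combination 2 * h1 - h2

omit t in
lemma V_tl (d : Fin 3) (p : Fin 3 × Fin 3) : c.V d (tl c s f p) =
    ∑ e, eps d p.1 e • tl c s f (e, p.2) + ∑ e, eps d p.2 e • tl c s f (p.1, e) := by
  simp only [tl, der_nf, h.V_gN, hf.lap d, c.VD, hf d, zsmul_eq_mul, Fin.sum_univ_three,
    Derivation.map_intCast]
  ring

end Spl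

/-! ### along a flow -/

lemma H_const_mul (c : Fl A) {u : A} (h1 : ∀ a, c.D a u = 0) (h2 : c.Dt u = 0) (x : A) :
    c.H (u * x) = u * c.H x := by rw [c.H_time_mul h1, h2, mul_zero, add_zero]

section static

variable {c : Fl A} (hK : ∀ a b, c.K a b = 0) {s f : A}
include hK

lemma st_T (a b : Fin 3) : c.T a b = 0 := by
  revert a b
  refine all3 (all3 ?_ ?_ ?_) (all3 ?_ ?_ ?_) (all3 ?_ ?_ ?_) <;> simp [c.nfT, hK]

lemma st_D (a : Fin 3) (x : A) : c.Dt (c.D a x) = c.D a (c.Dt x) := by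
  simp [c.tD, hK, st_T hK]

lemma st_M (a b : Fin 3) : c.Dt (c.M a b) = 0 := by simp [c.Dt_M, hK, st_T hK]

lemma st_S : c.Dt c.S = 0 := by simp [S, st_M hK]

lemma st_Lap (x : A) : c.Dt (c.Lap x) = c.Lap (c.Dt x) := by simp only [Lap, map_sum, st_D hK]

lemma st_H_Lap (x : A) : c.H (c.Lap x) = c.Lap (c.H x) := by rw [H, H, st_Lap hK, Lap_sub]

lemma st_H_D (hf : c.Inv f) (a : Fin 3) :
    c.H (c.D a f) = c.D a (c.H f) - ∑ b, c.Ric a b * c.D b f := by
  rw [H, H, st_D hK, hf.Lap_D, map_sub]; ring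

lemma st_H_ip (hf : c.Inv f) :
    c.H (c.ip f f) = 2 * c.ip f (c.H f) - 2 * c.hsq f - 2 * c.rip f f := by
  rw [H, H, Fl.Dt_ip hf hf, hf.bochner_self, ip_sub_right, c.ip_comm (c.Dt f)]
  simp only [hK, zero_mul, Finset.sum_const_zero]
  ring

variable (h : Spl c.toFr s)
include h

lemma st_s : c.Dt s = 0 := h.cancel (by rw [h.der, st_S hK, mul_zero, mul_zero])

lemma st_gN (a b : Fin 3) : c.Dt (gN c.toFr s a b) = 0 := by
  simp [gN, der_mul, st_s hK h, Ric, st_S hK, st_M hK]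

lemma st_nr (hf : c.Inv f) (t : Tg c.toFr (c.H f)) (a : Fin 3) : c.H (nr c.toFr s f a) = 0 := by
  have h1 := fun k => H_const_mul c (h.D_P · a k)
    (by rw [der_mul, st_s hK h, st_M hK, mul_zero, mul_zero, add_zero])
  have h2 := t a
  have h3 := h.rk a
  simp only [nr, H_sum, h1, st_H_D hK hf]
  simp only [Fin.sum_univ_three, Ric, eps_nf, zs_nf] at *
  linear_combination s * h2 + s * (c.D 0 f * h3 0 + c.D 1 f * h3 1 + c.D 2 f * h3 2)

lemma st_tl (hf : c.Inv f) (t : Tg c.toFr f) (p : Fin 3 × Fin 3) :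
    c.H (tl c.toFr s f p) = tl c.toFr s (c.H f) p -
      2 * (c.D p.1 c.S * c.D p.2 f + c.D p.2 c.S * c.D p.1 f - c.ip c.S f * gN c.toFr s p.1 p.2) -
      4 * c.S * tl c.toFr s f p := by
  rw [H, h.lap_tl t hf]
  simp only [tl, H, der_nf, st_D hK, st_Lap hK, st_gN hK h, Lap_sub]
  ring

end static

section flow

variable {c : RF A} {s f : A} (h : Spl c.toFr s)
include h

lemma rf_gN (a b : Fin 3) : c.Dt (gN c.toFr s a b) = 0 := h.cancel (by
  rw [gN, der_mul]
  linear_combination s * h.rk.dt_ric h.par a b + c.Ric a b * h.der c.Dt)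

lemma rf_P (a b : Fin 3) : c.Dt (s * c.M a b) = 0 := h.cancel (by
  rw [der_mul]
  linear_combination s * h.rk.dt h.par a b + c.M a b * h.der c.Dt)

lemma rf_S : c.H c.S = 2 * c.S ^ 2 := by rw [c.H_S, h.rk.rsq]

lemma rf_nr (hf : c.Inv f) (e : c.H f = 0) (a : Fin 3) : c.H (nr c.toFr s f a) = 0 := by
  simp only [nr, H_sum, H_const_mul c.toFl (h.D_P · a _) (rf_P h a _), RF.H_D_inv hf, e, map_zero,
    mul_zero, Finset.sum_const_zero]

lemma rf_lap (hf : c.Inv f) (t : Tg c.toFr f) (e : c.H f = 0) :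
    c.H (c.Lap f) = 2 * c.S * c.Lap f := by
  rw [RF.H_Lap hf, e, Lap_zero, h.rhs_eq t]; ring

lemma rf_tl (hf : c.Inv f) (t : Tg c.toFr f) (e : c.H f = 0) (p : Fin 3 × Fin 3) :
    c.H (tl c.toFr s f p) = -(2 * c.S) * tl c.toFr s f p := by
  rw [tl, H_sub, mul_comm (c.Lap f), H_const_mul c.toFl (h.D_gN · _ _) (rf_gN h _ _),
    H_const_mul c.toFl (fun _ => der_ofNat _ 2) (der_ofNat _ 2), H_hess hf, rf_lap h hf t e,
    h.zz_eq t, e, map_zero, map_zero]
  ring

end flow

end Vale.Agent.P216RD
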