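import Vale.Agent.P216RD.Main
import Vale.Agent.P216GM.Model
import Vale.Agent.P216ST.Heat
import Vale.Agent.P216KV.Main

/-! # The soliton equation, unconditionally -/

namespace Vale.Agent.P216RD

theorem k1a' : P216K.K1A := k1a P216GM.model (P216ST.heat _) (P216ST.heati _)

theorem rnd2 : P216K.RND2 := P216KV.rnd2 k1a'

end Vale.Agent.P216RD
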