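import Vale.Agent.P216RD.Mod
import Vale.Agent.P216RD.Alg
import Vale.Agent.P216D.ModM
import Vale.Agent.P216KV.Fam
import Vale.Agent.P216LS.PoU
import Vale.Agent.P216B.Sp

/-! # The curvature of a locally split metric; the dictionary of a global frame model -/

open scoped Manifold ContDiff Topology
open Set

set_option linter.unusedSimpArgs false

noncomputable section

namespace Vale.Agent.P216RD

open P216R hiding RF
open P216D P216D.Fr P216D.Fl P216K P216ST P216MP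

lemma M_split {A : Type*} [CommRing A] [Algebra ℝ A] {c : Fr A} {f : A} (hf : c.Inv f)
    (h : ∀ a b, c.D a (c.D b f) = 0) (h1 : c.ip f f = 1) (a b : Fin 3) :
    c.M a b = c.S * (c.D a f * c.D b f) := by
  have h2 := fun a b k => c.DD a b (c.D k f)
  simp only [h, map_zero, hf.VD] at h2
  have h3 : ∀ a d e, c.M a d * c.D e f = c.M a e * c.D d f := by
    have a0 := fun k => h2 1 2 k
    have a1 := fun k => h2 2 0 k
    have a2 := fun k => h2 0 1 k
    have b := fun k => And.intro (a0 k) (And.intro (a1 k) (a2 k))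
    have b0 := b 0
    have b1 := b 1
    have b2 := b 2
    simp only [Fin.sum_univ_three, eps_nf, zs_nf] at b0 b1 b2
    obtain ⟨⟨x0, x1, x2⟩, ⟨y0, y1, y2⟩, z0, z1, z2⟩ := And.intro b0 (And.intro b1 b2)
    refine all3 ?_ ?_ ?_ <;> refine all3 (all3 rfl ?_ ?_) (all3 ?_ rfl ?_) (all3 ?_ ?_ rfl) <;>
      first
      | linear_combination x0 | linear_combination -x0 | linear_combination y0
      | linear_combination -y0 | linear_combination z0 | linear_combination -z0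
      | linear_combination x1 | linear_combination -x1 | linear_combination y1
      | linear_combination -y1 | linear_combination z1 | linear_combination -z1
      | linear_combination x2 | linear_combination -x2 | linear_combination y2
      | linear_combination -y2 | linear_combination z2 | linear_combination -z2
  have h4 := fun d => h3 d a d
  simp only [fun d => c.M_symm d a] at h4
  simp only [ip, Fin.sum_univ_three] at h1
  rw [S]
  linear_combination -c.M a b * h1 + c.D 0 f * h3 a b 0 + c.D 1 f * h3 a b 1 + c.D 2 f * h3 a b 2 +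
    c.D b f * (h4 0 + h4 1 + h4 2)

lemma DM_split {A : Type*} [CommRing A] [Algebra ℝ A] {c : Fr A} {f : A} (hf : c.Inv f)
    (h : ∀ a b, c.D a (c.D b f) = 0) (h1 : c.ip f f = 1) (d a b : Fin 3) :
    c.S * c.D d (c.M a b) = c.D d c.S * c.M a b := by
  rw [M_split hf h h1 a b]
  simp only [der_nf, h]
  ring

variable {M : Type} [TopologicalSpace M] [ChartedSpace E3 M] [IsManifold 𝓘(ℝ, E3) ∞ M]
  {g : ℝ → Ten E3 M} {g₀ : Ten E3 M} {I : Set ℝ} {U V : Set M} {x : M} {e : Fin 3 → E3}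
  {b u v : M → ℝ}

lemma df_eq (hV : IsOpen V) (hb : ContMDiffOn 𝓘(ℝ, E3) 𝓘(ℝ, ℝ) ∞ b V) (hx : x ∈ V) (w : E3) :
    df b x w = fderiv ℝ (rd E3 b x) (pt E3 x) w :=
  congrArg (fun l : E3 →L[ℝ] ℝ => l w)
    (mdF_eq ((hb.contMDiffAt (hV.mem_nhds hx)).mdifferentiableAt (by simp)))

lemma gam_fr (hg : Met g₀ U) (hx : x ∈ U) (he : ON (g₀ x) e) (hV : IsOpen V) (hxV : x ∈ V)
    (hu : ContMDiffOn 𝓘(ℝ, E3) 𝓘(ℝ, ℝ) ∞ u V) (hv : ContMDiffOn 𝓘(ℝ, E3) 𝓘(ℝ, ℝ) ∞ v V) :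
    gam g₀ u v x = ∑ a, df u x (e a) * df v x (e a) := by
  rw [P216LS.gam_dF, he.inv (hg.pos x hx)]
  simp only [df_eq hV hu hxV, df_eq hV hv hxV, P216LS.dF]

omit [IsManifold 𝓘(ℝ, E3) ∞ M] in
lemma lap_fr' (hp : ∀ v, v ≠ 0 → 0 < co g₀ x (pt E3 x) v v) (he : ON (co g₀ x (pt E3 x)) e) :
    lap g₀ u x = ∑ a, hess g₀ u x (e a) (e a) := by
  rw [lap, lapG_eq, he.trB hp]; rfl

lemma lap_fr (hg : Met g₀ U) (hx : x ∈ U) (he : ON (g₀ x) e) :
    lap g₀ u x = ∑ a, hess g₀ u x (e a) (e a) :=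
  lap_fr' (by rw [co_pt]; exact hg.pos x hx) (by rwa [co_pt])

/-- the curvature of a split metric -/
theorem split (hg : Met g₀ V) (hb : P216DC.Spl g₀ V b) (hx : x ∈ V) (he : ON (g₀ x) e) :
    (∀ c d, mm g₀ x e 0 ![] c d = Sc g₀ x / 2 * (df b x (e c) * df b x (e d))) ∧
      (∀ k c d, Sc g₀ x / 2 * mm g₀ x e 1 ![k] c d =
        (mm g₀ x e 1 ![k] 0 0 + mm g₀ x e 1 ![k] 1 1 + mm g₀ x e 1 ![k] 2 2) *
          mm g₀ x e 0 ![] c d) ∧ ∑ a, df b x (e a) * df b x (e a) = 1 := by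
  have h := hg.fam univ
  have hs := smF_const ((P216LS.sm0_iff' hg.isOpen).2 hb.smooth) univ
  have h1 : ∀ a c, (cl h iv_univ x).fr.D a ((cl h iv_univ x).fr.D c (sm h iv_univ x _ hs)) = 0 :=
    fun a c => Sm.ext fun p => by
      refine (Loc.ev_hess_sc p _ a c).trans ?_
      refine (congrArg (fun B : Bi => B _ _) (P216KV.hess_rd hg hg.isOpen Subset.rfl hb.smooth
        (Loc.x_mem p))).trans ?_
      rw [comap_apply, hb.hess _ (Loc.x_mem p).2, map_zero]; rfl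
  have h2 : (cl h iv_univ x).fr.ip (sm h iv_univ x _ hs) (sm h iv_univ x _ hs) = 1 := by
    rw [ip_sm]
    exact Sm.ext fun p => (hb.unit _ (Loc.x_mem p).2).trans (map_one _).symm
  have s := fp_S (h := h) (hI := iv_univ) (hs := mem_univ 0) (hy := hx) (hf := he)
  have m0 := fp_Dw_M (h := h) (hI := iv_univ) (hs := mem_univ 0) (hy := hx) (hf := he) 0 ![]
  have m1 := fun k =>
    fp_Dw_M (h := h) (hI := iv_univ) (hs := mem_univ 0) (hy := hx) (hf := he) 1 ![k]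
  simp only [List.ofFn_succ, List.ofFn_zero, Dw_cons, Dw_nil, Matrix.cons_val_zero] at m0 m1
  refine ⟨fun c d => ?_, fun k c d => ?_, ?_⟩
  · have := congrArg (ev (fp h iv_univ (mem_univ 0) hx he)) (M_split (inv_sm h iv_univ x hs) h1 h2 c d)
    rw [map_mul, map_mul, fp_D, fp_D, m0] at this
    rw [df_eq hg.isOpen hb.smooth hx, df_eq hg.isOpen hb.smooth hx, ← s, mm, this]
    ring
  · have := congrArg (ev (fp h iv_univ (mem_univ 0) hx he))
      (DM_split (inv_sm h iv_univ x hs) h1 h2 k c d)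
    rw [map_mul, map_mul, m1, m0] at this
    rw [← s, mm, mm, mm, mm, mm, ← m1, ← m1, ← m1, ← m1, ← map_add, ← map_add, ← map_add, ← map_add,
      m1]
    exact (by ring : _ = _).trans this
  · rw [← gam_fr hg hx he hg.isOpen hx hb.smooth hb.smooth, hb.unit x hx]

/-- a frame at every point -/
def pt0 (h : Fam g I U) {t : ℝ} (ht : t ∈ I) (hx : x ∈ U) : FP g I U :=
  ⟨t, x, fr0 (g t x), ht, hx, fr0_on (h.symm t ht x hx) (h.pos t ht x hx)⟩

/-- the metric of the surface in a frame -/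
def gn (g : Ten E3 M) (x : M) (e : Fin 3 → E3) (i j : Fin 3) : ℝ :=
  (Sc g x / 2)⁻¹ * Ric g x (e i) (e j)

/-- twice the traceless Hessian in a frame -/
def ct (g : Ten E3 M) (u : M → ℝ) (x : M) (e : Fin 3 → E3) (q : Fin 3 × Fin 3) : ℝ :=
  2 * hess g u x (e q.1) (e q.2) - lap g u x * gn g x e q.1 q.2

/-- the ring element `f` is the function `u` -/
def Mod.Is (m : Mod g I U) (f : m.A) (u : ℝ → M → ℝ) : Prop :=
  m.c.Inv f ∧ ∀ p, m.G.ev p f = u p.t p.x ∧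
    HasDerivWithinAt (fun s => u s p.x) (m.G.ev p (m.c.Dt f)) I p.t ∧
    (∀ a, m.G.ev p (m.c.D a f) = df (u p.t) p.x (p.e a)) ∧
    ∀ a b, m.G.ev p (m.c.D a (m.c.D b f)) = hess (g p.t) (u p.t) p.x (p.e a) (p.e b)

namespace Mod

variable (m : Mod g I U) {f s : m.A} {u : ℝ → M → ℝ}

omit [IsManifold 𝓘(ℝ, E3) ∞ M] in
lemma M0 (p : FP g I U) (a b : Fin 3) :
    m.G.ev p (m.c.M a b) = mm (g p.t) p.x p.e 0 ![] a b := m.rm p 0 ![] a b

omit [IsManifold 𝓘(ℝ, E3) ∞ M] in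
lemma M1 (p : FP g I U) (k a b : Fin 3) :
    m.G.ev p (m.c.D k (m.c.M a b)) = mm (g p.t) p.x p.e 1 ![k] a b := m.rm p 1 ![k] a b

omit [IsManifold 𝓘(ℝ, E3) ∞ M] in
lemma S' (p : FP g I U) : m.G.ev p m.c.S = Sc (g p.t) p.x / 2 := by rw [← m.S]; ring

theorem spl (h : Fam g I U)
    (hs : ∀ t ∈ I, ∀ x ∈ U, ∃ V ⊆ U, IsOpen V ∧ x ∈ V ∧ ∃ b, P216DC.Spl (g t) V b)
    (h0 : ∀ t ∈ I, ∀ x ∈ U, 0 < Sc (g t) x) : ∃ s, Spl m.c.toFr s := by
  obtain ⟨s, hs'⟩ := m.G.inv m.c.S fun p => by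
    rw [m.S']; exact (half_pos (h0 _ p.ht _ p.hx)).ne'
  refine ⟨s, hs', fun a b => m.G.eq fun p => ?_, fun d a b => m.G.eq fun p => ?_⟩ <;>
    obtain ⟨V, h1, h2, h3, β, h4⟩ := hs _ p.ht _ p.hx <;>
    obtain ⟨h5, h6, h7⟩ := split ((h.met p.ht).mono h2 h1) h4 h3 p.on
  · simp only [map_add, map_mul, m.M0, m.S', h5, Fin.sum_univ_three] at h7 ⊢
    linear_combination (Sc (g p.t) p.x / 2) ^ 2 * (df β p.x (p.e a) * df β p.x (p.e b)) * h7
  · rw [map_mul, map_mul, m.S', m.M1, h6, m.M0, Fr.S]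
    simp only [map_add, m.M1]

omit [IsManifold 𝓘(ℝ, E3) ∞ M] in
lemma ev_s (h : Spl m.c.toFr s) (p : FP g I U) : m.G.ev p s = (Sc (g p.t) p.x / 2)⁻¹ := by
  have := congrArg (m.G.ev p) h.inv
  rw [map_mul, map_one, m.S'] at this
  exact eq_inv_of_mul_eq_one_right this

omit [IsManifold 𝓘(ℝ, E3) ∞ M] in
lemma ev_gN (h : Spl m.c.toFr s) (p : FP g I U) (i j : Fin 3) :
    m.G.ev p (gN m.c.toFr s i j) = gn (g p.t) p.x p.e i j := by
  rw [gN, map_mul, m.ev_s h, m.ric, gn]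

omit [IsManifold 𝓘(ℝ, E3) ∞ M] in
lemma K0 (m : Mod (fun _ => g₀) I U) (hI : Iv I) (a b : Fin 3) : m.c.K a b = 0 :=
  m.G.ext _ fun p => by
    have := (hI.ud _ p.ht).eq_deriv _ (m.K p a b) (hasDerivWithinAt_const _ _ _)
    linarith

/-- the calculus of a Ricci flow -/
def rf (h : P216R.RF g I U) (hI : Iv I) : RF m.A where
  toFl := m.c
  ric a b := m.G.eq fun p => by
    have h1 := ((h.eqn _ p.ht _ p.hx).clm_apply
      (hasDerivWithinAt_const _ _ (p.e a))).clm_apply (hasDerivWithinAt_const _ _ (p.e b))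
    have h2 := (hI.ud _ p.ht).eq_deriv _ (m.K p a b) h1
    simp only [map_zero, add_zero, _root_.smul_apply, smul_eq_mul] at h2
    rw [m.ric]
    linarith

omit [IsManifold 𝓘(ℝ, E3) ∞ M] in
lemma bdM (p : FP g I U) {k : ℕ} {B : ℝ} (h : RmB (g p.t) k p.x B) (w : List (Fin 3))
    (hw : w.length = k) (a b : Fin 3) : |m.G.ev p (m.c.Dw w (m.c.M a b))| ≤ B := by
  obtain ⟨v, rfl⟩ := exists_ofFn w hw
  rw [m.rm]
  exact h _ fun i => (p.on _ _).trans_le (by simp [dl])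

omit [IsManifold 𝓘(ℝ, E3) ∞ M] in
lemma bdS (p : FP g I U) {k : ℕ} {B : ℝ} (h : RmB (g p.t) k p.x B) (w : List (Fin 3))
    (hw : w.length = k) : |m.G.ev p (m.c.Dw w m.c.S)| ≤ 3 * B := by
  have := fun a => abs_le.1 (m.bdM p h w hw a a)
  rw [Fr.S, Dw_add, Dw_add, map_add, map_add, abs_le]
  constructor <;> linarith [this 0, this 1, this 2]

omit [IsManifold 𝓘(ℝ, E3) ∞ M] in
lemma bdN (p : FP g I U) {k : ℕ} {B : ℝ} (h : RmB (g p.t) k p.x B) :
    m.G.ev p (m.c.N k) ≤ 9 * 3 ^ k * B ^ 2 := by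
  simpa [Fr.N] using m.c.ev_Nf_le (m.G.ev p) m.c.Mf fun w hw i => m.bdM p h w hw i.1 i.2

variable {m}

lemma Is.lap (hf : m.Is f u) (h : Fam g I U) (p : FP g I U) :
    m.G.ev p (m.c.Lap f) = lap (g p.t) (u p.t) p.x := by
  rw [lap_fr (h.met p.ht) p.hx p.on, Lap, map_sum]
  simp only [(hf.2 p).2.2.2]

lemma Is.tl (hf : m.Is f u) (h : Fam g I U) (hs : Spl m.c.toFr s) (p : FP g I U)
    (q : Fin 3 × Fin 3) : m.G.ev p (tl m.c.toFr s f q) = ct (g p.t) (u p.t) p.x p.e q := by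
  rw [P216RD.tl, map_sub, map_mul, map_mul, hf.lap h, m.ev_gN hs, (hf.2 p).2.2.2, map_ofNat, ct]

lemma Is.H (hf : m.Is f u) (h : Fam g I U) (hI : Iv I) {w : m.A} (e : ∀ p : FP g I U,
    HasDerivWithinAt (fun s => u s p.x) (P216R.lap (g p.t) (u p.t) p.x + m.G.ev p w) I p.t) :
    m.c.H f = w := m.G.eq fun p => by
  rw [Fl.H, map_sub, hf.lap h, (hI.ud _ p.ht).eq_deriv _ (hf.2 p).2.1 (e p), add_sub_cancel_left]

end Mod

lemma gam_zero (g : Ten E3 M) (u : M → ℝ) (x : M) : gam g (fun _ => 0) u x = 0 := by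
  rw [P216LS.gam_dF, P216LS.dF_const]; rfl

omit [IsManifold 𝓘(ℝ, E3) ∞ M] in
lemma smF_zero : SmF E3 (fun _ _ => (0 : ℝ)) I U := fun _ => contDiffOn_const

/-- functions with small gradient are almost constant -/
lemma osc (hg : Met g₀ U) (hc : IsCompact U) (hU : IsPreconnected U) (hx : x ∈ U) : ∃ D > 0,
    ∀ (u : M → ℝ) (η : ℝ), Sm0 E3 u U → 0 < η → (∀ y ∈ U, gam g₀ u u y ≤ η ^ 2) →
      ∀ y ∈ U, |u y - u x| ≤ η * D := by
  obtain ⟨D, hD⟩ := hc.bddAbove_image (f := dd g₀ U x) fun y hy =>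
    (hg.continuousAt_dd_right (hg.ed_ne_top hU Subset.rfl hx hy)).continuousWithinAt
  refine ⟨max D 1, by positivity, fun u η hu hη h y hy => ?_⟩
  have := hg.lip_of_gam (((P216LS.sm0_iff' hg.isOpen).1 hu).of_le (by simp)) hη h x y
  rw [← ofReal_dd (hg.ed_ne_top hU Subset.rfl hx hy), ← ENNReal.ofReal_mul hη.le,
    ENNReal.ofReal_le_ofReal_iff (mul_nonneg hη.le dd_nonneg)] at this
  exact this.trans (mul_le_mul_of_nonneg_left ((hD ⟨y, hy, rfl⟩).trans (le_max_left _ _)) hη.le)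

end Vale.Agent.P216RD
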